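import Vale.Agent.N172.Fix

/-! A free resolution of length two: cohomological dimension at most two, no torsion. -/

set_option linter.all false

namespace Vale.Agent.N172B

open CategoryTheory Limits Rep

variable {G : Type} [Group G]

theorem ex {k : Type} [CommRing k] (S : ShortComplex (Rep.{0} k G))
    (h : ∀ x, S.g.hom x = 0 → ∃ y, S.f.hom y = x) : S.Exact :=
  (forget₂ (Rep.{0} k G) (ModuleCat.{0} k)).reflects_exact_of_faithful _
    ((ShortComplex.moduleCat_exact_iff _).2 h)

section
variable {α ι : Type} (d2 : free ℤ G ι ⟶ free ℤ G α) (d1 : free ℤ G α ⟶ leftRegular ℤ G)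

/-- the terms of the resolution -/
noncomputable def RX (G α ι : Type) [Group G] : ℕ → Rep ℤ G
  | 0 => leftRegular ℤ G
  | 1 => free ℤ G α
  | 2 => free ℤ G ι
  | _ + 3 => free ℤ G Empty

/-- the differentials -/
noncomputable def Rd : ∀ n, RX G α ι (n + 1) ⟶ RX G α ι n
  | 0 => d1
  | 1 => d2
  | _ + 2 => 0

theorem cd_two (h2 : Function.Injective d2.hom) (h1 : ∀ x, d1.hom x = 0 ↔ ∃ y, d2.hom y = x)
    (h0 : ∀ x, (leftRegularHom (trivial ℤ G ℤ) 1).hom x = 0 ↔ ∃ y, d1.hom y = x)
    (M : Rep ℤ G) (n : ℕ) (hn : 3 ≤ n) : IsZero (groupCohomology M n) := by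
  have sq : ∀ n, Rd d2 d1 (n + 1) ≫ Rd d2 d1 n = 0 := by
    rintro (_ | _ | n)
    · exact Rep.hom_ext (DFunLike.ext _ _ fun y => (h1 _).2 ⟨y, rfl⟩)
    · exact zero_comp
    · exact zero_comp
  let C : ChainComplex (Rep ℤ G) ℕ := ChainComplex.of (RX G α ι) (Rd d2 d1) sq
  have hd : ∀ n, C.d (n + 1) n = Rd d2 d1 n := fun n => ChainComplex.of_d _ _ n
  have hz : ∀ n, IsZero (RX G α ι (n + 3)) := fun n =>
    (Rep.isZero_iff ℤ G _).2 (inferInstanceAs (Subsingleton (Empty →₀ MonoidAlgebra ℤ G)))
  let π : C ⟶ (ChainComplex.single₀ (Rep ℤ G)).obj (trivial ℤ G ℤ) :=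
    (C.toSingle₀Equiv _).symm ⟨leftRegularHom _ 1, by
      rw [hd]
      exact Rep.hom_ext (DFunLike.ext _ _ fun y => (h0 _).2 ⟨y, rfl⟩)⟩
  have hπ : π.f 0 = leftRegularHom (trivial ℤ G ℤ) (1 : ℤ) := ChainComplex.toSingle₀Equiv_symm_apply_f_zero _ _
  have q : QuasiIso π := ⟨fun m => by
    induction m with
    | zero =>
      rw [ChainComplex.quasiIsoAt₀_iff, ShortComplex.quasiIso_iff_of_zeros' _ rfl rfl rfl]
      constructor
      · refine ex _ fun x hx => ?_
        change (π.f 0).hom x = 0 at hx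
        change ∃ y, (C.d 1 0).hom y = x
        rw [hπ] at hx
        rw [hd]
        exact (h0 x).1 hx
      · change Epi (π.f 0)
        rw [hπ]
        exact (Rep.epi_iff_surjective (leftRegularHom (trivial ℤ G ℤ) (1 : ℤ))).2
          fun x => ⟨.single 1 x, by simp⟩
    | succ m _ =>
      rw [quasiIsoAt_iff_exactAt' (hL := ChainComplex.exactAt_succ_single_obj ..),
          HomologicalComplex.exactAt_iff' _ (m + 2) (m + 1) m (by simp) (by simp)]
      refine ex _ fun x hx => ?_
      change (C.d (m + 1) m).hom x = 0 at hx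
      change ∃ y, (C.d (m + 2) (m + 1)).hom y = x
      rw [hd] at hx ⊢
      rcases m with _ | _ | m
      · exact (h1 x).1 hx
      · exact ⟨0, (map_zero _).trans (h2 (hx.trans (map_zero _).symm)).symm⟩
      · exact ⟨0, @Subsingleton.elim _ ((Rep.isZero_iff ℤ G _).1 (hz m)) _ _⟩⟩
  let P : ProjectiveResolution (trivial ℤ G ℤ) :=
    { complex := C
      projective := by
        rintro (_ | _ | _ | n)
        · exact inferInstanceAs (Projective (leftRegular ℤ G))
        · exact inferInstanceAs (Projective (free ℤ G α))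
        · exact inferInstanceAs (Projective (free ℤ G ι))
        · exact inferInstanceAs (Projective (free ℤ G Empty))
      π := π
      quasiIso := q }
  refine IsZero.of_iso ?_ (groupCohomologyIso M n P)
  obtain ⟨n, rfl⟩ := Nat.exists_eq_add_of_le' hn
  refine (HomologicalComplex.exactAt_iff_isZero_homology _ _).1
    (ShortComplex.exact_of_isZero_X₂ _ ?_)
  exact ModuleCat.isZero_iff_subsingleton.2 ⟨fun f g => (hz n).eq_of_src f g⟩

end

theorem torsionFree (h : ∀ M : Rep ℤ G, IsZero (groupCohomology M 4)) (g : G)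
    (hg : IsOfFinOrder g) : g = 1 := by
  classical
  let S := Subgroup.zpowers g
  letI : CommGroup S := IsMulCommutative.instCommGroup
  have : Finite S := hg.finite_zpowers
  letI := Fintype.ofFinite S
  have h1 : IsZero (groupCohomology (trivial ℤ S ℤ) 4) :=
    (h _).of_iso (groupCohomology.coindIso (trivial ℤ S ℤ) 4).symm
  have h2 := (FiniteCyclicGroup.groupCohomologyπEven_eq_zero_iff (trivial ℤ S ℤ)
    ⟨g, Subgroup.mem_zpowers g⟩ (by
      rintro ⟨_, k, rfl⟩
      exact ⟨k, rfl⟩) 4 (by decide) ⟨(1 : ℤ), by simp [sub_hom, applyAsHom]⟩).1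
    (@Subsingleton.elim _ (ModuleCat.isZero_iff_subsingleton.1 h1) _ _)
  obtain ⟨y, hy⟩ := h2
  have h3 : (Fintype.card S : ℤ) * y = 1 := by simpa [Rep.norm, Representation.norm] using hy
  have h4 : Fintype.card S = 1 := by
    have := Int.eq_one_of_mul_eq_one_right (by positivity) h3
    exact_mod_cast this
  exact congrArg Subtype.val (Fintype.card_le_one_iff.1 h4.le ⟨g, Subgroup.mem_zpowers g⟩ 1)

end Vale.Agent.N172B

/-! A group with an infinite subgroup with the fixed point property has nonzero `H²`. -/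

namespace Vale.Agent.N172B

open Vale.Agent.P172V Vale.Agent.N172 CategoryTheory Limits groupCohomology Filter

universe u

theorem cnt_hilbert {X : Type*} [NormedAddCommGroup X] [InnerProductSpace ℝ X] :
    IsCNt fun (x y : X) (t : ℝ) => x + t • (y - x) := fun x y z t _ _ => by
  have e1 : z - (x + t • (y - x)) = (z - x) - t • (y - x) := by abel
  have e2 : z - y = (z - x) - (y - x) := by abel
  simp only [dist_eq_norm]
  rw [e1, e2, norm_sub_rev x y, norm_sub_sq_real (z - x), norm_sub_sq_real (z - x), norm_smul,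
    inner_smul_right, mul_pow, Real.norm_eq_abs, sq_abs]
  exact le_of_eq (by ring)

/-- derivations with finitely supported integer values are inner -/
theorem inner_der {H I : Type} [Group H] [Infinite H] (hH : Fix.{u} H) [MulAction H I]
    (hI : ∀ i : I, Function.Injective fun g : H => g • i) (D : H → I →₀ ℤ)
    (hD : ∀ g h i, D (g * h) i = D h (g⁻¹ • i) + D g i) :
    ∃ w : I →₀ ℤ, ∀ g i, w (g⁻¹ • i) + D g i = w i := by
  let X := lp (fun _ : ULift.{u} I => ℝ) 2
  let e : H → ULift.{u} I ≃ ULift.{u} I := fun g =>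
    Equiv.ulift.trans ((MulAction.toPerm g⁻¹).trans Equiv.ulift.symm)
  have h2 : 0 < (2 : ENNReal).toReal := by norm_num
  have hm : ∀ g (v : X), Memℓp (fun i => v (e g i) + (D g i.down : ℝ)) 2 := fun g v =>
    Memℓp.add (memℓp_gen ((e g).summable_iff.2 ((lp.memℓp v).summable h2)))
      ((memℓp_zero (((D g).hasFiniteSupport.preimage
        (Equiv.ulift.injective.injOn)).subset fun i hi => by simpa using hi)).of_exponent_ge zero_le)
  letI : MulAction H X :=
    { smul := fun g v => ⟨_, hm g v⟩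
      one_smul := fun v => lp.ext (funext fun i => by
        have := hD 1 1 i.down
        rw [one_mul, inv_one, one_smul, left_eq_add] at this
        show v (e 1 i) + (D 1 i.down : ℝ) = v i
        simp [e, this])
      mul_smul := fun g h v => lp.ext (funext fun i => by
        show v (e (g * h) i) + (D (g * h) i.down : ℝ) =
          v (e h (e g i)) + (D h (e g i).down : ℝ) + (D g i.down : ℝ)
        simp [e, hD, mul_smul, add_assoc]) }
  haveI : IsIsometricSMul H X := ⟨fun g => Isometry.of_dist_eq fun x y => by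
    rw [dist_eq_norm, dist_eq_norm, lp.norm_eq_tsum_rpow h2, lp.norm_eq_tsum_rpow h2,
      ← (e g).tsum_eq fun i => ‖(x - y) i‖ ^ _]
    congr 2
    funext i
    congr 2
    exact add_sub_add_right_eq_sub (x (e g i)) (y (e g i)) (D g i.down : ℝ)⟩
  obtain ⟨v, hv⟩ := hH X _ cnt_hilbert
  have h3 : ∀ g i, v ⟨g⁻¹ • i⟩ + (D g i : ℝ) = v ⟨i⟩ := fun g i =>
    congrArg (fun x : X => x ⟨i⟩) (hv g)
  have h4 : Tendsto (fun i : I => v ⟨i⟩) cofinite (nhds 0) := by
    have := ((lp.memℓp v).summable h2).tendsto_cofinite_zero.comp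
      Equiv.ulift.symm.injective.tendsto_cofinite
    have := this.sqrt
    rw [tendsto_zero_iff_norm_tendsto_zero]
    simpa [Function.comp_def, Real.sqrt_sq_eq_abs] using this
  have h5 : ∀ i, ∃ n : ℤ, (n : ℝ) = v ⟨i⟩ := fun i => by
    have a := (h4.comp ((hI i).comp inv_injective).tendsto_cofinite).const_sub (v ⟨i⟩)
    rw [sub_zero] at a
    exact Int.isClosedEmbedding_coe_real.isClosed_range.mem_of_tendsto a
      (Eventually.of_forall fun g => ⟨D g i, eq_sub_of_add_eq' (h3 g i)⟩)
  choose w hw using h5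
  have h6 : (Function.support w).Finite := by
    refine (mem_cofinite.1 (h4 (Metric.ball_mem_nhds 0 one_pos))).subset fun i hi h => hi ?_
    have : |(w i : ℝ)| < 1 := by simpa [hw] using h
    exact Int.abs_lt_one_iff.1 (by exact_mod_cast this)
  refine ⟨Finsupp.ofSupportFinite w h6, fun g i => ?_⟩
  have := h3 g i
  rw [← hw, ← hw] at this
  exact Int.cast_injective (α := ℝ) ((Int.cast_add _ _).trans this)

theorem h2_ne {G : Type} [Group G] (H : Subgroup G) [Infinite H] (hH : Fix.{u} H) :
    ∃ M : Rep ℤ G, ¬ IsZero (groupCohomology M 2) := by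
  let ρ : Representation ℤ G (G × G →₀ ℤ) :=
    { toFun := fun g => Finsupp.lmapDomain ℤ ℤ (g • ·)
      map_one' := by ext; simp
      map_mul' := fun g h => by ext; simp [mul_smul] }
  let d : (G × G →₀ ℤ) →ₗ[ℤ] (G →₀ ℤ) :=
    Finsupp.lmapDomain ℤ ℤ Prod.snd - Finsupp.lmapDomain ℤ ℤ Prod.fst
  have hd : ∀ g x, d (ρ g x) = Finsupp.lmapDomain ℤ ℤ (g * ·) (d x) := fun g =>
    DFunLike.congr_fun (f := d ∘ₗ ρ g) (g := Finsupp.lmapDomain ℤ ℤ (g * ·) ∘ₗ d) (by
      ext x : 2
      simp [d, ρ, Finsupp.mapDomain_sub])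
  let M := Rep.subrepresentation (Rep.of ρ) (LinearMap.ker d) fun g x hx => by
    show d (ρ g x) = 0
    rw [hd, show d x = 0 from hx, map_zero]
  let w : G → G × G →₀ ℤ := fun g => Finsupp.single (1, g) 1
  refine ⟨M, fun h0 => ?_⟩
  obtain ⟨f, hf⟩ := (H2π_eq_zero_iff (A := M) ⟨fun p => ⟨ρ p.1 (w p.2) - w (p.1 * p.2) + w p.1, by
      simp [d, ρ, w, Finsupp.mapDomain_sub, Finsupp.mapDomain_add]⟩, (mem_cocycles₂_iff _).2 fun g h j => Subtype.ext (by
        show ρ (g * h) (w j) - w (g * h * j) + w (g * h) + (ρ g (w h) - w (g * h) + w g) =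
          ρ g (ρ h (w j) - w (h * j) + w h) + (ρ g (w (h * j)) - w (g * (h * j)) + w g)
        simp only [map_mul, Module.End.mul_apply, map_add, map_sub, mul_assoc]
        abel)⟩).1 (@Subsingleton.elim _ (ModuleCat.isZero_iff_subsingleton.1 h0) _ _)
  have hρ : ∀ g x i, ρ g x i = x (g⁻¹ • i) := fun g x i =>
    Finsupp.mapDomain_equiv_apply (f := MulAction.toPerm g) x i
  obtain ⟨v, hv⟩ := inner_der hH (I := G × G)
    (fun i a b e => Subtype.ext (mul_right_cancel (congrArg Prod.fst e)))
    (fun g => w g - (f g).1) fun g h i => by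
      have : ρ g (f h).1 - (f (g * h)).1 + (f g).1 = ρ g (w h) - w (g * h) + w g :=
        congrArg Subtype.val (congrFun hf (g, h))
      have e : w (g * h) - (f (g * h)).1 = ρ g (w h - (f h).1) + (w g - (f g).1) := by
        rw [map_sub]
        linear_combination (norm := abel1) this
      exact (DFunLike.congr_fun e i).trans (congrArg (· + _) (hρ g _ i))
  have h1 : ∀ (g : H) x, (d v + Finsupp.single (1 : G) (1 : ℤ)) (g * x) =
      (d v + Finsupp.single (1 : G) (1 : ℤ)) x := fun g x => by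
    have e : ρ g v + (w g - (f g).1) = v := Finsupp.ext fun i =>
      (congrArg (· + _) (hρ g v i)).trans (hv g i)
    have e2 : Finsupp.mapDomain ((g : G) * ·) (d v + Finsupp.single (1 : G) (1 : ℤ)) =
        d v + Finsupp.single (1 : G) (1 : ℤ) := by
      conv_rhs => rw [← e, map_add, map_sub, hd, show d (f g).1 = 0 from (f g).2]
      simp [d, w, Finsupp.mapDomain_add, add_assoc]
    rw [← e2, Finsupp.mapDomain_apply (mul_right_injective _), e2]
  have h2 : d v + Finsupp.single (1 : G) (1 : ℤ) = 0 := Finsupp.ext fun x => by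
    by_contra h
    exact Set.infinite_of_injective_forall_mem (f := fun g : H => (g : G) * x)
      (fun a b e => Subtype.ext (mul_right_cancel e)) (fun g => by rwa [← h1 g] at h)
      (d v + Finsupp.single (1 : G) (1 : ℤ)).hasFiniteSupport
  have h3 : Finsupp.linearCombination ℤ (fun _ : G => (1 : ℤ)) ∘ₗ d = 0 := by
    ext
    simp [d]
  have h4 := congrArg (Finsupp.linearCombination ℤ fun _ : G => (1 : ℤ)) h2
  rw [map_add, ← LinearMap.comp_apply, h3] at h4
  simp at h4

end Vale.Agent.N172B
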