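import Mathlib

/-! Aspherical presentations. -/

namespace Vale.Agent.N172B

/-- The presentation with generators `A` and relators `r i` is aspherical: whenever a product of
conjugates `v * r i * v⁻¹` and their inverses is trivial in the free group, the corresponding signed
sum of the `2`-cells `(class of v, i)` of the Cayley complex is zero. -/
def Aspherical {A ι : Type} (r : ι → FreeGroup A) : Prop :=
  ∀ w : FreeGroup (FreeGroup A × ι),
    FreeGroup.lift (fun x : FreeGroup A × ι => x.1 * r x.2 * x.1⁻¹) w = 1 →
    FreeGroup.lift (fun x : FreeGroup A × ι => Multiplicative.ofAdd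
      (Finsupp.single (PresentedGroup.mk (Set.range r) x.1, x.2) (1 : ℤ))) w = 1

end Vale.Agent.N172B
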