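import Vale.Agent.P172V.GL

/-! Planar complexes: relabelling, odd cochains, the two sides of a pinch, capping two faces. -/

set_option linter.all false

namespace Vale.Agent.N172B

open Finset Vale.Agent.P201.S Vale.Agent.P201.S.BrRed Vale.Agent.P172V Vale.Agent.P172V.Rec

/-- the same complex with other labels -/
abbrev rl {A B : Type} (K : PC A) (lab : K.E → B) : PC B := { K with lab := lab }

theorem wo_U {A : Type} (K : PC A) (l : List (K.E × Bool)) : wo (rl K id) l = l :=
  List.map_id' l

theorem sum_ite_list {α M : Type} [DecidableEq α] [AddCommMonoid M] (y : α) (s : M) :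
    ∀ l : List α, l.Nodup → (l.map fun d => if y = d then s else 0).sum = if y ∈ l then s else 0 := by
  intro l
  induction l with
  | nil => simp
  | cons x l ih =>
    intro h
    rw [List.nodup_cons] at h
    rw [List.map_cons, List.sum_cons, ih h.2]
    by_cases e : y = x
    · subst e
      simp [h.1]
    · simp [e]

theorem sum_map_sum {α ι M : Type} [AddCommMonoid M] (s : Finset ι) (F : ι → α → M) (l : List α) :
    (l.map fun d => ∑ g ∈ s, F g d).sum = ∑ g ∈ s, (l.map (F g)).sum := by
  induction l with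
  | nil => simp
  | cons x l ih => simp [ih, sum_add_distrib]

theorem sum_map_sub {α M : Type} [AddCommGroup M] (F F' : α → M) (l : List α) :
    (l.map fun d => F d - F' d).sum = (l.map F).sum - (l.map F').sum := by
  induction l with
  | nil => simp
  | cons x l ih =>
    simp only [List.map_cons, List.sum_cons, ih]
    abel

/-- an odd function on darts with prescribed sums around the inner faces -/
theorem exists_chi {A M : Type} [AddCommGroup M] (K : PC A) (m : K.F → M) :
    ∃ χ : K.E × Bool → M, (∀ d, χ (rv d) = -χ d) ∧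
      (∀ f, ((K.bd (some f)).map χ).sum = m f) ∧ ((K.bd none).map χ).sum = -∑ f, m f := by
  classical
  obtain ⟨_, T, _⟩ := exists_T K
  let S : K.F → M := fun g => ∑ x ∈ T.sub g, m x
  have key : ∀ φ, ((K.bd φ).map fun d => (∑ g, if T.dd g = d then S g else 0) -
      ∑ g, if rv (T.dd g) = d then S g else 0).sum =
      (∑ g, if some g = φ then S g else 0) - ∑ g with T.par g = φ, S g := by
    intro φ
    rw [sum_map_sub, sum_map_sum, sum_map_sum, sum_filter]
    congr 1 <;> refine sum_congr rfl fun g _ => ?_ <;> rw [sum_ite_list _ _ _ (nodup_bd K φ)]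
    · have : T.dd g ∈ K.bd φ ↔ some g = φ := ⟨face_unique K (T.mem g), fun h => h ▸ T.mem g⟩
      simp only [this]
    · simp only [rv_dd_mem T]
  refine ⟨fun d => (∑ g, if T.dd g = d then S g else 0) - ∑ g, if rv (T.dd g) = d then S g else 0,
    fun d => ?_, fun f => ?_, ?_⟩
  · rw [neg_sub]
    beta_reduce
    congr 1 <;> refine sum_congr rfl fun g _ => if_congr ?_ rfl rfl
    · exact ⟨fun h => by rw [h, BrRed.rv_rv], fun h => by rw [← h, BrRed.rv_rv]⟩
    · exact ⟨BrRed.rv_inj, fun h => by rw [h]⟩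
  · rw [key]
    simp only [Option.some.injEq, sum_ite_eq', mem_univ, if_true, S]
    rw [sum_sub T m f, add_sub_cancel_right]
  · rw [key, sum_univ T m]
    simp [S]

theorem sum_count {α M : Type} [Fintype α] [BEq α] [LawfulBEq α] [AddCommMonoid M] (χ : α → M)
    (l : List α) : (l.map χ).sum = ∑ d, l.count d • χ d := by
  classical
  induction l with
  | nil => simp
  | cons x l ih =>
    simp only [List.map_cons, List.sum_cons, ih, List.count_cons, add_smul, sum_add_distrib,
      beq_iff_eq, ite_smul, one_smul, zero_smul, sum_ite_eq, mem_univ, if_true]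
    exact add_comm _ _

/-- an odd function on darts has total sum zero -/
theorem sum_odd {A M : Type} [AddCommGroup M] (K : PC A) (χ : K.E × Bool → M)
    (h : ∀ d, χ (rv d) = -χ d) : ((K.bd none).map χ).sum + ∑ f, ((K.bd (some f)).map χ).sum = 0 := by
  rw [← Fintype.sum_option (fun φ => ((K.bd φ).map χ).sum)]
  simp only [sum_count]
  rw [sum_comm]
  simp only [← sum_smul, K.once, one_smul]
  rw [Fintype.sum_prod_type]
  refine sum_eq_zero fun e _ => ?_
  rw [Fintype.sum_bool, show χ (e, false) = -χ (e, true) from h (e, true), add_neg_cancel]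

section
variable {A : Type} {K : PC A} (C : K.Cotree) {ν : FreeGroup A → ℕ∞}

open Classical in
theorem list_le (hν : IsNorm ν) (L : List (K.E × Bool)) (hn : L.Nodup)
    (hL : ∀ x ∈ L, ∀ g, (C.dd g).1 = x.1 → x = rv (C.dd g))
    (hd : ∀ a b x, rv (C.dd a) ∈ L → rv (C.dd b) ∈ L → C.Desc a x → C.Desc b x → a = b)
    (S : Finset K.F) (hS : ∀ a x, rv (C.dd a) ∈ L → C.Desc a x → x ∈ S) {p : K.V}
    (hp : Path K p L p) :
    ν (FreeGroup.mk (wo K L)) ≤ ∑ f ∈ S, ν (FreeGroup.mk (K.wd (some f))) := by
  rw [← hν.conj (C.pot p), ← prod_path C hp]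
  refine (nu_list C hν _ hn hL).trans ((sum_le_sum fun g _ => sub_le C hν g).trans ?_)
  rw [← sum_biUnion]
  · refine sum_le_sum_of_subset fun x hx => ?_
    obtain ⟨g, hg, hx⟩ := mem_biUnion.1 hx
    exact hS g x (mem_filter.1 hg).2 ((mem_sub C).1 hx)
  · intro a ha b hb hab
    simp only [coe_filter, mem_univ, true_and, Set.mem_ofPred_eq] at ha hb
    rw [Function.onFun, Finset.disjoint_left]
    intro x hx hx'
    rw [mem_sub] at hx hx'
    exact hab (hd a b x ha hb hx hx')

end

/-- a pinched pair of outer edges cuts the faces into two parts -/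
theorem pinch {A : Type} (K : PC A) {l1 l2 : List (K.E × Bool)} {d d' : K.E × Bool}
    (h : K.bd none = l1 ++ d :: d' :: l2) (hne : d.1 ≠ d'.1) (hends : K.org d = K.org (rv d')) :
    ∃ S : Finset K.F, S.Nonempty ∧ ∀ ν : FreeGroup A → ℕ∞, IsNorm ν →
      ν (FreeGroup.mk (wo K [d, d'])) ≤ ∑ f ∈ S, ν (FreeGroup.mk (K.wd (some f))) ∧
      ν (FreeGroup.mk (wo K (l1 ++ l2))) ≤ ∑ f ∈ Sᶜ, ν (FreeGroup.mk (K.wd (some f))) := by
  classical
  obtain ⟨T, C, htree⟩ := exists_T K
  have hnd := nodup_bd K none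
  obtain ⟨y, -, p1, p2, p3⟩ := path_rest h
  have hd : d ∈ K.bd none := by rw [h]; simp
  have hd' : d' ∈ K.bd none := by rw [h]; simp
  have hsub : ∀ x ∈ l1 ++ l2, x ∈ K.bd none := by
    intro x hx
    rw [h]
    simp only [List.mem_append, List.mem_cons] at hx ⊢
    tauto
  have hsub' : ∀ x ∈ [d, d'], x ∈ K.bd none := by simp [hd, hd']
  rw [h, List.nodup_middle, List.nodup_cons, List.nodup_middle, List.nodup_cons] at hnd
  have hdn : d ∉ l1 ++ l2 := by
    intro hx
    apply hnd.1
    simp only [List.mem_append, List.mem_cons] at hx ⊢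
    tauto
  obtain ⟨g0, hg1⟩ : ∃ g0, rv (C.dd g0) ∈ [d, d'] := by
    by_contra hcon
    push Not at hcon
    have hnt : ∀ x ∈ [d, d'], ∀ f, (C.dd f).1 ≠ x.1 := fun x hx f hfx =>
      hcon f (out_cond C (hsub' x hx) f hfx ▸ hx)
    exact VK5.not_both K T hne p2.symm hends ((htree d.1).2 (hnt d (by simp)))
      ((htree d'.1).2 (hnt d' (by simp)))
  refine ⟨univ.filter fun x => ∃ a, rv (C.dd a) ∈ [d, d'] ∧ C.Desc a x,
    ⟨g0, mem_filter.2 ⟨mem_univ _, g0, hg1, Relation.ReflTransGen.refl⟩⟩, fun ν hν => ⟨?_, ?_⟩⟩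
  · refine list_le C hν _ (by simpa using fun e : d = d' => hne (by rw [e]))
      (fun x hx g hg => out_cond C (hsub' x hx) g hg)
      (fun a b x ha hb => desc_disj C ((rv_dd_mem C).1 (hsub' _ ha)) ((rv_dd_mem C).1 (hsub' _ hb)))
      _ (fun a x ha hx => mem_filter.2 ⟨mem_univ _, a, ha, hx⟩) (p := K.org d) ⟨rfl, p2, hends.symm⟩
  · refine list_le C hν _ hnd.2.2 (fun x hx g hg => out_cond C (hsub x hx) g hg)
      (fun a b x ha hb => desc_disj C ((rv_dd_mem C).1 (hsub _ ha)) ((rv_dd_mem C).1 (hsub _ hb)))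
      _ (fun a x ha hx => mem_compl.2 fun hx' => ?_) (p := K.org y)
      (path_append.2 ⟨_, p1, hends ▸ p3⟩)
    obtain ⟨b, hb, hx'⟩ := (mem_filter.1 hx').2
    obtain rfl := desc_disj C ((rv_dd_mem C).1 (hsub _ ha)) ((rv_dd_mem C).1 (hsub' _ hb)) hx hx'
    simp only [List.mem_cons, List.not_mem_nil, or_false] at hb
    rcases hb with hb | hb
    · exact hdn (hb ▸ ha)
    · exact hnd.2.1 (hb ▸ ha)

/-- two faces on the outer boundary: the rest of their boundaries is filled by the other faces -/
theorem cap {A : Type} (K : PC A) {ν : FreeGroup A → ℕ∞} (hν : IsNorm ν) {f f' : K.F} (hne : f ≠ f')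
    {m1 m2 n1 n2 : List (K.E × Bool)} {x x' : K.E × Bool}
    (hf : K.bd (some f) = m1 ++ x :: m2) (hf' : K.bd (some f') = n1 ++ x' :: n2)
    (hx : rv x ∈ K.bd none) (hx' : rv x' ∈ K.bd none)
    (e1 : K.org x = K.org (rv x')) (e2 : K.org x' = K.org (rv x)) :
    ν (FreeGroup.mk (wo K (m2 ++ m1 ++ (n2 ++ n1)))) ≤
      ∑ g ∈ (univ.erase f).erase f', ν (FreeGroup.mk (K.wd (some g))) := by
  classical
  choose par dd hm hr hdist using dG_parent K
  have hxf : x ∈ K.bd (some f) := by rw [hf]; simp
  have hxf' : x' ∈ K.bd (some f') := by rw [hf']; simp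
  obtain ⟨C, hC1, hC2, _⟩ := BrMir.hypT2 A K (fun g => if g = f ∨ g = f' then none else par g)
    (fun g => if g = f then x else if g = f' then x' else dd g)
    (fun g => (dG K).dist (some g) none) (K.org x)
    (by
      intro g
      by_cases h1 : g = f
      · simp only [h1, if_true]; exact hxf
      · by_cases h2 : g = f'
        · subst h2
          simp only [h1, if_false, if_true]; exact hxf'
        · simp only [h1, h2, if_false]; exact hm g)
    (by
      intro g
      by_cases h1 : g = f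
      · simp only [h1, if_true, true_or]; exact hx
      · by_cases h2 : g = f'
        · subst h2
          simp only [h1, if_false, if_true, or_true]; exact hx'
        · simp only [h1, h2, if_false, or_self]; exact hr g)
    (by
      intro g k hgk
      by_cases h1 : g = f ∨ g = f'
      · simp [h1] at hgk
      · simp only [h1, if_false] at hgk
        have h3 := hdist g
        rwa [hgk] at h3)
  have pf : C.par f = none := by rw [hC1]; simp
  have pf' : C.par f' = none := by rw [hC1]; simp
  have df : C.dd f = x := by rw [hC2]; simp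
  have df' : C.dd f' = x' := by rw [hC2]; simp [hne.symm]
  obtain ⟨y, _, h1, h2⟩ := path_rest hf
  obtain ⟨y', _, h3, h4⟩ := path_rest hf'
  have hp : Path K (K.org (rv x)) (m2 ++ m1 ++ (n2 ++ n1)) (K.org (rv x)) :=
    path_append.2 ⟨_, path_append.2 ⟨_, h2, h1⟩, path_append.2 ⟨_, e1 ▸ h4, e2 ▸ h3⟩⟩
  have hnf := nodup_bd K (some f)
  have hnf' := nodup_bd K (some f')
  rw [hf, List.nodup_middle, List.nodup_cons] at hnf
  rw [hf', List.nodup_middle, List.nodup_cons] at hnf'
  have hA : ∀ y ∈ m2 ++ m1, y ∈ K.bd (some f) ∧ y ≠ x := by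
    intro y hy
    refine ⟨by rw [hf]; simp only [List.mem_append, List.mem_cons] at hy ⊢; tauto, ?_⟩
    rintro rfl
    exact hnf.1 ((List.perm_append_comm).mem_iff.1 hy)
  have hB : ∀ y ∈ n2 ++ n1, y ∈ K.bd (some f') ∧ y ≠ x' := by
    intro y hy
    refine ⟨by rw [hf']; simp only [List.mem_append, List.mem_cons] at hy ⊢; tauto, ?_⟩
    rintro rfl
    exact hnf'.1 ((List.perm_append_comm).mem_iff.1 hy)
  have hpar : ∀ a, rv (C.dd a) ∈ m2 ++ m1 ++ (n2 ++ n1) → C.par a = some f ∨ C.par a = some f' :=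
    fun a ha => (List.mem_append.1 ha).imp (fun h => (rv_dd_mem C).1 (hA _ h).1)
      fun h => (rv_dd_mem C).1 (hB _ h).1
  have hup : ∀ {a b z : K.F}, C.par a = some b → C.Desc a z → C.Desc b z := fun h1 h2 =>
    (desc_cases C).2 (Or.inr ⟨_, h1, h2⟩)
  refine list_le C hν _ (List.Nodup.append ((List.perm_append_comm.nodup_iff).1 hnf.2)
    ((List.perm_append_comm.nodup_iff).1 hnf'.2) fun z hz hz' =>
      hne (Option.some_injective _ (face_unique K (hA z hz).1 (hB z hz').1))) ?_ ?_ _ ?_ hp
  · intro z hz g hg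
    refine (eq_or_rv hg).resolve_left fun h => ?_
    have h5 := C.mem g
    rw [← h] at h5
    rcases List.mem_append.1 hz with h6 | h6
    · obtain rfl := Option.some_injective _ (face_unique K (hA z h6).1 h5)
      exact (hA z h6).2 (h.trans df)
    · obtain rfl := Option.some_injective _ (face_unique K (hB z h6).1 h5)
      exact (hB z h6).2 (h.trans df')
  · intro a b z ha hb h5 h6
    rcases hpar a ha with h7 | h7 <;> rcases hpar b hb with h8 | h8
    · exact desc_disj C h7 h8 h5 h6
    · exact absurd (desc_disj C pf pf' (hup h7 h5) (hup h8 h6)) hne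
    · exact absurd (desc_disj C pf pf' (hup h8 h6) (hup h7 h5)) hne
    · exact desc_disj C h7 h8 h5 h6
  · intro a z ha hz
    have h7 : C.par a ≠ none := by rcases hpar a ha with h | h <;> simp [h]
    refine mem_erase.2 ⟨?_, mem_erase.2 ⟨?_, mem_univ _⟩⟩ <;> rintro rfl
    · exact h7 (VK5.desc_top C pf' hz ▸ pf')
    · exact h7 (VK5.desc_top C pf hz ▸ pf)

end Vale.Agent.N172B
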