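import Vale.Agent.N172B.Pres

/-! Assembly: free products of the group with free groups. -/

set_option linter.all false

namespace Vale.Agent.N172B

open Finset Vale.Agent.P172 Vale.Agent.P172.H372 Vale.Agent.P172V Vale.Agent.N172 VK VK.GS
  PresentedGroup CategoryTheory Limits

universe u

variable {A : Type} {Γ : GS A}

theorem loc_mono {sp : A → Prop} {K K' D : ℕ} (h : Γ.Loc sp K D) (hK : K' ≤ K) : Γ.Loc sp K' D :=
  fun F _ _ ob Z μ h1 h2 h3 h4 => h F ob Z μ h1 h2 h3 (h4.trans hK)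

/-- the same graphs over an alphabet with `j` more letters -/
abbrev Ext (Γ : GS A) (j : ℕ) : GS (A ⊕ Fin j) := re Γ Γ.O id fun o p => .inl (Γ.lab o p)

theorem loc_ext {sp : A → Prop} {K D : ℕ} (h : Γ.Loc sp K D) (j : ℕ) :
    (Ext Γ j).Loc (Sum.elim sp fun _ => False) K D := fun F _ _ ob Z μ h1 h2 h3 h4 =>
  h F ob Z μ h1 h2 (fun x hx => ⟨(h3 x hx).1, Sum.inl_injective (h3 x hx).2.1, (h3 x hx).2.2⟩) h4

theorem lift_of {B Q : Type} [Group Q] {R : Set (FreeGroup B)} (φ : PresentedGroup R →* Q)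
    (u : FreeGroup B) : FreeGroup.lift (fun a => φ (of a)) u = φ (PresentedGroup.mk R u) :=
  DFunLike.congr_fun (f := FreeGroup.lift fun a => φ (of a)) (g := φ.comp (PresentedGroup.mk R))
    (FreeGroup.ext_hom _ _ fun _ => FreeGroup.lift_apply_of) u

theorem lift_ext {Q : Type} [Group Q] {j : ℕ} (f : A ⊕ Fin j → Q) (o : Γ.O) (l : List (Γ.P × Bool)) :
    FreeGroup.lift f (FreeGroup.mk ((Ext Γ j).word o l)) =
      FreeGroup.lift (fun a => f (.inl a)) (FreeGroup.mk (Γ.word o l)) := by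
  simp only [FreeGroup.lift_mk, word, List.map_map]
  rfl

/-- homomorphisms from the extended group -/
noncomputable def homEquiv (Γ : GS A) (j : ℕ) (Q : Type) [Group Q] :
    ((Ext Γ j).Gp →* Q) ≃ (Γ.Gp →* Q) × (Fin j → Q) where
  toFun ψ := (toGroup (f := fun a => ψ (of (.inl a))) (by
    rintro _ ⟨o, l, h, rfl⟩
    rw [← lift_ext fun a => ψ (of a), lift_of, cw_one (isCW_re.2 h), map_one]),
    fun t => ψ (of (.inr t)))
  invFun φ := toGroup (f := Sum.elim (fun a => φ.1 (of a)) φ.2) (by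
    rintro _ ⟨o, l, h, rfl⟩
    rw [lift_ext]
    exact (lift_of φ.1 _).trans (by rw [cw_one (Γ := Γ) (o := o) ((isCW_re (π := id)).1 h), map_one]))
  left_inv ψ := PresentedGroup.ext fun a => by cases a <;> simp [toGroup.of]
  right_inv φ := Prod.ext (PresentedGroup.ext fun a => by simp [toGroup.of])
    (funext fun t => by simp [toGroup.of])

theorem ext_inj (Γ : GS A) (j : ℕ) : ∃ i : Γ.Gp →* (Ext Γ j).Gp, Function.Injective i := by
  refine ⟨(homEquiv Γ j _ (MonoidHom.id _)).1, Function.LeftInverse.injective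
    (g := (homEquiv Γ j _).symm (MonoidHom.id _, 1)) fun x => ?_⟩
  refine DFunLike.congr_fun (f := ((homEquiv Γ j _).symm (MonoidHom.id _, 1)).comp
    (homEquiv Γ j _ (MonoidHom.id _)).1) (g := MonoidHom.id _) (PresentedGroup.ext fun a => ?_) x
  simp [homEquiv, toGroup.of]

theorem ext_ne [Finite A] {m n : ℕ} (e : (Ext Γ m).Gp ≃* (Ext Γ n).Gp) : m = n := by
  have : Finite (Γ.Gp →* Multiplicative (ZMod 2)) := Finite.of_injective
    (fun φ a => φ (of a)) fun φ ψ h => PresentedGroup.ext (congrFun h)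
  have h := Nat.card_congr ((homEquiv Γ m (Multiplicative (ZMod 2))).symm.trans
    ((e.monoidHomCongrLeftEquiv).trans (homEquiv Γ n _)))
  simp only [Nat.card_prod, Fintype.card_fun, Nat.card_eq_fintype_card, Fintype.card_fin,
    Fintype.card_multiplicative, ZMod.card] at h
  exact Nat.pow_right_injective le_rfl (Nat.eq_of_mul_eq_mul_left Nat.card_pos h)

theorem core : ∃ (A : Type) (_ : Finite A) (Γ : GS A) (H : Subgroup Γ.Gp), Finite Γ.O ∧
    Infinite H ∧ Fix.{u} H ∧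
    ∀ j, P186.Hy.IsHyperbolic (Ext Γ j).Gp ∧ Asph (Cv (Ext Γ j)) := by
  classical
  obtain ⟨k, ε, hε, hC⟩ := noAct.{u}
  obtain ⟨n, hn, hA⟩ := stmtA k ε hε
  obtain ⟨K1, h1⟩ := stmtB13_of stmtB4 (Fintype.card Fl) n
  obtain ⟨K2, h2⟩ := asph (Fintype.card Fl) n
  obtain ⟨N, D, s0, s1, hs, hS, hU⟩ := hA (11 * max K1 K2)
  have hL := stmtB2 _ _ _ D s0 s1 n _ hS
  have h3 := (h1 _ D.gs _ le_rfl (loc_mono hL (le_max_left _ _))).2 s0 s1 (.inl rfl) (.inr rfl) hs
  obtain ⟨r, hr⟩ := shift D (PresentedGroup.of s1)⁻¹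
  let a : Fin N → r.range := fun s => r.rangeRestrict (PresentedGroup.of s)
  have hgen : Subgroup.closure (Set.range a) = ⊤ := by
    rw [show Set.range a = r.rangeRestrict '' Set.range PresentedGroup.of from Set.range_comp _ _,
      ← MonoidHom.map_closure, PresentedGroup.closure_range_of, ← MonoidHom.range_eq_map,
      MonoidHom.range_eq_top.2 r.rangeRestrict_surjective]
  have : Nonempty (Fin N) := ⟨s0⟩
  have : Finite Ro := inferInstance
  refine ⟨Fin N, inferInstance, D.gs, r.range, inferInstanceAs (Finite {o // D.Val o}), ?_,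
    fun X _ _ _ _ _ pt hpt => fix_of_noAct a s1 (Subtype.ext ((hr s1).trans (mul_inv_cancel _)))
      hgen (hC _ _ _ D _ a hU fun z hz => ?_) X hpt, fun j =>
    ⟨(h1 _ (Ext D.gs j) _ le_rfl (loc_ext (loc_mono hL (le_max_left _ _)) j)).1,
      h2 _ (Cv (Ext D.gs j)) _ le_rfl (loc_cv (loc_ext (loc_mono hL (le_max_right _ _)) j))⟩⟩
  · refine not_finite_iff_infinite.1 fun hf => h3 ?_
    rw [← hr]
    exact r.range.subtype.isOfFinOrder (isOfFinOrder_of_finite (a s0))
  · obtain ⟨g, h1, h3⟩ := stmtB0 _ _ _ D z hz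
    exact ⟨fun x => r.rangeRestrict (g x), by simp only [h1, map_one],
      fun φ hφ => by simp only [h3 φ hφ, map_mul, a]⟩

theorem Fix_map {H G : Type} [Group H] [Group G] (h : Fix.{u} H) (φ : H →* G) :
    Fix.{u} φ.range := fun X _ _ _ _ _ pt hpt => by
  letI : MulAction H X := MulAction.compHom X φ.rangeRestrict
  haveI : IsIsometricSMul H X := ⟨fun g => isometry_smul X (φ.rangeRestrict g)⟩
  obtain ⟨x, hx⟩ := h X pt hpt
  exact ⟨x, fun g => let ⟨y, hy⟩ := φ.rangeRestrict_surjective g; hy ▸ hx y⟩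

theorem family : ∃ (G : ℕ → Type) (_ : ∀ n, Group (G n)), (∀ m n, Nonempty (G m ≃* G n) → m = n) ∧
    ∀ n, P186.IsHyperbolicGroup (G n) ∧ (∀ g : G n, IsOfFinOrder g → g = 1) ∧
      (∃ (A ι : Type) (_ : Finite A) (_ : Finite ι) (r : ι → FreeGroup A),
        Nonempty (G n ≃* PresentedGroup (Set.range r)) ∧ Aspherical r) ∧
      (∀ (M : Rep ℤ (G n)) (k : ℕ), 3 ≤ k → IsZero (groupCohomology M k)) ∧
      (∃ M : Rep ℤ (G n), ¬ IsZero (groupCohomology M 2)) ∧
      ∀ (X : Type u) [MetricSpace X] [MulAction (G n) X], Nonempty X → CompleteSpace X →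
        IsIsometricSMul (G n) X → IsCAT0 X ∨ IsCATNegOne X →
        (∃ x : X, Infinite (MulAction.stabilizer (G n) x)) ∧
          ¬ ProperlyDiscontinuousSMul (G n) X ∧ ¬ IsGeometric (G n) X := by
  obtain ⟨A, _, Γ, H, _, _, hH, h⟩ := core.{u}
  refine ⟨fun j => (Ext Γ j).Gp, inferInstance, fun m n ⟨e⟩ => ext_ne e, fun j => ?_⟩
  obtain ⟨⟨T, hT1, hT2, δ, hT3⟩, hA⟩ := h j
  obtain ⟨i, hi⟩ := ext_inj Γ j
  have h1 := Fix_map hH (i.comp H.subtype)
  have := Infinite.of_injective _ (MonoidHom.ofInjective (f := i.comp H.subtype)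
    (hi.comp Subtype.val_injective)).injective
  have h2 := res (Γ := Ext Γ j) hA
  refine ⟨⟨hT1.toFinset, by simpa using hT2, δ, by rw [Set.Finite.coe_toFinset]; exact hT3⟩,
    torsionFree fun M => h2 M 4 (by omega),
    let ⟨ι, _, r, h⟩ := pres (Γ := Ext Γ j) hA; ⟨_, ι, inferInstance, inferInstance, r, h⟩, h2,
    h2_ne _ h1, fun X _ _ _ _ _ hX => ?_⟩
  obtain ⟨pt, hpt⟩ := exists_cnt (hX.elim id isCAT0_of_isCATNegOne)
  have : IsIsometricSMul (i.comp H.subtype).range X := ⟨fun g => isometry_smul X g.1⟩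
  obtain ⟨x, hx⟩ := h1 X pt hpt
  have h3 : Infinite (MulAction.stabilizer (Ext Γ j).Gp x) := Infinite.of_injective _
    (Subgroup.inclusion_injective (show (i.comp H.subtype).range ≤ _ from fun g hg => hx ⟨g, hg⟩))
  have h4 : ¬ {g : (Ext Γ j).Gp | ((fun y => g • y) '' {x} ∩ {x}).Nonempty}.Finite := fun hf =>
    Set.infinite_coe_iff.1 h3 (hf.subset fun g hg => ⟨x, ⟨x, rfl, hg⟩, rfl⟩)
  exact ⟨⟨x, h3⟩, fun hp => h4 (hp.1 isCompact_singleton isCompact_singleton),
    fun hp => h4 (hp.1 _ isCompact_singleton)⟩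

theorem q1 : (¬ ∀ (G : Type) [Group G], P186.IsHyperbolicGroup G →
      ∃ (X : Type u) (_ : MetricSpace X) (_ : MulAction G X), Nonempty X ∧ ProperSpace X ∧
        IsCAT0 X ∧ IsIsometricSMul G X ∧ IsGeometric G X) ∧
    ¬ ∀ (G : Type) [Group G], P186.IsHyperbolicGroup G →
      ∃ (X : Type u) (_ : MetricSpace X) (_ : MulAction G X), Nonempty X ∧ ProperSpace X ∧
        IsCATNegOne X ∧ IsIsometricSMul G X ∧ IsGeometric G X := by
  obtain ⟨G, _, -, h⟩ := family.{u}
  obtain ⟨h1, -, -, -, -, h2⟩ := h 0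
  constructor <;> intro h <;> obtain ⟨X, _, _, a, _, b, c, d⟩ := h _ h1
  · exact (h2 X a inferInstance c (.inl b)).2.2 d
  · exact (h2 X a inferInstance c (.inr b)).2.2 d

end Vale.Agent.N172B
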