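import Vale.Agent.N172B.Dgm

/-! The norm on pairs (chain, word), realisation of expressions with their chains. -/

set_option linter.all false

namespace Vale.Agent.N172B

open Finset Vale.Agent.P201.S Vale.Agent.P201.S.BrRed Vale.Agent.P172V VK VK.GS GD Multiplicative

/-- the same graphs with other objects and labels -/
abbrev re {A B : Type} (Γ : GS A) (O' : Type) (π : O' → Γ.O) (lab : O' → Γ.P → B) : GS B :=
  { Γ with O := O', ok := fun o p => Γ.ok (π o) p, lab := lab }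

theorem isWk_re {A B : Type} {Γ : GS A} {O' : Type} {π : O' → Γ.O} {lab : O' → Γ.P → B}
    {l : List (Γ.P × Bool)} : ∀ {u v : Γ.Vx}, (re Γ O' π lab).IsWk u l v ↔ Γ.IsWk u l v := by
  induction l with
  | nil => exact Iff.rfl
  | cons x l ih => exact and_congr Iff.rfl ih

theorem isCW_re {A B : Type} {Γ : GS A} {O' : Type} {π : O' → Γ.O} {lab : O' → Γ.P → B} {o : O'}
    {l : List (Γ.P × Bool)} : (re Γ O' π lab).IsCW o l ↔ Γ.IsCW (π o) l :=
  and_congr Iff.rfl (exists_congr fun _ => isWk_re)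

/-- signed value -/
def sg {E M : Type} [AddCommGroup M] (c : E → M) (x : E × Bool) : M := if x.2 then c x.1 else -c x.1

theorem sg_rv {E M : Type} [AddCommGroup M] (c : E → M) (x : E × Bool) :
    sg c (x.1, !x.2) = -sg c x := by
  obtain ⟨e, b⟩ := x
  cases b <;> simp [sg]

/-- evaluation of a word in (chain, word) -/
def evl {E M A : Type} [AddCommGroup M] (c : E → M) (a : E → A) :
    FreeGroup E →* Multiplicative M × FreeGroup A :=
  FreeGroup.lift fun e => (ofAdd (c e), FreeGroup.of (a e))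

theorem evl_mk {E M A : Type} [AddCommGroup M] (c : E → M) (a : E → A) (l : List (E × Bool)) :
    evl c a (FreeGroup.mk l) =
      (ofAdd (l.map (sg c)).sum, FreeGroup.mk (l.map fun x => (a x.1, x.2))) := by
  induction l with
  | nil => exact map_one _
  | cons x l ih =>
    rw [show x :: l = [x] ++ l from rfl, ← FreeGroup.mul_mk, map_mul, ih, List.map_append,
      List.map_append, ← FreeGroup.mul_mk, List.sum_append, ofAdd_add, ← Prod.mk_mul_mk]
    congr 1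
    obtain ⟨e, b⟩ := x
    cases b
    · rw [show FreeGroup.mk [(e, false)] = (FreeGroup.of e)⁻¹ from rfl, map_inv, evl,
        FreeGroup.lift_apply_of]
      simp [sg]
      rfl
    · rw [show FreeGroup.mk [(e, true)] = FreeGroup.of e from rfl, evl, FreeGroup.lift_apply_of]
      simp [sg]
      rfl

variable {A : Type} (Γ : GS A)

/-- chains on the edges of the objects -/
abbrev Ch : Type := (Γ.O × Γ.P) →₀ ℤ

/-- the chain of a walk -/
noncomputable def cls (o : Γ.O) (l : List (Γ.P × Bool)) : Ch Γ :=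
  (l.map (sg fun p => Finsupp.single (o, p) 1)).sum

/-- labels which remember the edge -/
noncomputable abbrev Gm : GS (A × Ch Γ) := re Γ Γ.O id fun o p => (Γ.lab o p, Finsupp.single (o, p) 1)

/-- pairs (chain, word) -/
abbrev HH : Type := Multiplicative (Ch Γ) × FreeGroup A

noncomputable abbrev Ps : FreeGroup (A × Ch Γ) →* HH Γ := evl Prod.snd Prod.fst

theorem Ps_word (o : Γ.O) (l : List (Γ.P × Bool)) :
    Ps Γ (FreeGroup.mk ((Gm Γ).word o l)) = (ofAdd (cls Γ o l), FreeGroup.mk (Γ.word o l)) := by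
  rw [evl_mk]
  simp only [word, List.map_map]
  rfl

/-- expressions of weight `k` -/
def Xc (k : ℕ) (h : HH Γ) : Prop := ∃ u, Ex (Rw (Gm Γ)) Wt k u ∧ Ps Γ u = h

noncomputable def NN (h : HH Γ) : ℕ∞ := ⨅ (k : ℕ) (_ : Xc Γ k h), (k : ℕ∞)

variable {Γ}

theorem Xc.one : Xc Γ 0 1 := ⟨1, Ex.nil, map_one _⟩

theorem Xc.mul {k k' : ℕ} {h h' : HH Γ} (a : Xc Γ k h) (b : Xc Γ k' h') : Xc Γ (k + k') (h * h') :=
  let ⟨u, a1, a2⟩ := a
  let ⟨v, b1, b2⟩ := b
  ⟨u * v, a1.mul b1, by rw [map_mul, a2, b2]⟩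

theorem Xc.inv {k : ℕ} {h : HH Γ} (a : Xc Γ k h) : Xc Γ k h⁻¹ :=
  let ⟨u, a1, a2⟩ := a
  ⟨u⁻¹, a1.inv rw_inv, by rw [map_inv, a2]⟩

theorem Xc.conj {k : ℕ} {h : HH Γ} (a : Xc Γ k h) (g : HH Γ) : Xc Γ k (g * h * g⁻¹) := by
  obtain ⟨u, a1, rfl⟩ := a
  have e : ((MonoidHom.snd _ _).comp (Ps Γ)).comp (FreeGroup.map fun a : A => (a, (0 : Ch Γ))) =
      MonoidHom.id _ := FreeGroup.ext_hom _ _ fun a => by simp [evl]
  refine ⟨_, a1.conj (FreeGroup.map (fun a : A => (a, (0 : Ch Γ))) g.2), ?_⟩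
  rw [map_mul, map_mul, map_inv]
  have e2 : (Ps Γ (FreeGroup.map (fun a : A => (a, (0 : Ch Γ))) g.2)).2 = g.2 :=
    DFunLike.congr_fun e g.2
  refine Prod.ext ?_ ?_
  · simp only [Prod.fst_mul, Prod.fst_inv, mul_inv_cancel_comm]
  · simp only [Prod.snd_mul, Prod.snd_inv, e2]

theorem NN_le {k : ℕ} {h : HH Γ} (a : Xc Γ k h) : NN Γ h ≤ k :=
  iInf₂_le (f := fun (k : ℕ) (_ : Xc Γ k h) => (k : ℕ∞)) k a

theorem NN_cases (u : HH Γ) : NN Γ u = ⊤ ∨ ∃ k : ℕ, NN Γ u = k ∧ Xc Γ k u := by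
  classical
  by_cases h : ∃ k, Xc Γ k u
  · refine Or.inr ⟨Nat.find h, le_antisymm (NN_le (Nat.find_spec h)) ?_, Nat.find_spec h⟩
    exact le_iInf₂ fun k hk => Nat.cast_le.2 (Nat.find_min' h hk)
  · push Not at h
    left
    simp [NN, h]

theorem NN_le_of {u v : HH Γ} (h : ∀ k, Xc Γ k u → Xc Γ k v) : NN Γ v ≤ NN Γ u :=
  le_iInf₂ fun k hk => NN_le (h k hk)

theorem NN_mul (a b : HH Γ) : NN Γ (a * b) ≤ NN Γ a + NN Γ b := by
  rcases NN_cases a with h1 | ⟨k1, h1, h2⟩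
  · simp [h1]
  rcases NN_cases b with h3 | ⟨k2, h3, h4⟩
  · simp [h3]
  rw [h1, h3, ← Nat.cast_add]
  exact NN_le (h2.mul h4)

theorem NN_inv (a : HH Γ) : NN Γ a⁻¹ = NN Γ a :=
  le_antisymm (NN_le_of fun _ h => h.inv) (NN_le_of fun _ h => by simpa using h.inv)

theorem NN_norm {B : Type} (φ : FreeGroup B →* HH Γ) : IsNorm fun u => NN Γ (φ u) where
  one := le_antisymm (by simpa using NN_le (Γ := Γ) Xc.one) zero_le
  mul := fun a b => by rw [map_mul]; exact NN_mul _ _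
  inv := fun a => by rw [map_inv, NN_inv]
  conj := fun v a => by
    rw [map_mul, map_mul, map_inv]
    exact le_antisymm (NN_le_of fun _ h => h.conj _)
      (NN_le_of fun _ h => by simpa [mul_assoc] using h.conj (φ v)⁻¹)

theorem NN_word (o : Γ.O) (l : List (Γ.P × Bool)) :
    NN Γ (ofAdd (cls Γ o l), FreeGroup.mk (Γ.word o l)) ≤
      nn (Gm Γ) (FreeGroup.mk ((Gm Γ).word o l)) :=
  le_iInf₂ fun _ hk => NN_le ⟨_, hk, Ps_word Γ o l⟩

/-- the faces of `K` are closed walks of objects; total weight `k`, total chain `c` -/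
structure Dat (Γ : GS A) (K : PC A) (k : ℕ) (c : Ch Γ) where
  ob : K.F → Γ.O
  wk : K.F → List (Γ.P × Bool)
  ne : ∀ f, wk f ≠ []
  cw : ∀ f, (Gm Γ).IsCW (ob f) (wk f)
  wd : ∀ f, K.wd (some f) = Γ.word (ob f) (wk f)
  wt : ∑ f, (2 * (wk f).length - 1) = k
  cl : ∑ f, cls Γ (ob f) (wk f) = c

theorem realise {k : ℕ} {c : Ch Γ} (h : Xc Γ k (ofAdd c, 1)) :
    ∃ K : PC A, Nonempty (Dat Γ K k c) ∧ FreeGroup.mk (K.wd none) = 1 := by
  obtain ⟨u, h1, h2⟩ := h
  obtain ⟨K, a1, a2, a3⟩ := stmtB1Z _ _ Wt (fun r hr => (rw_ne r hr).1) k u h1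
  choose ob wk hne hcw hwd using a1
  have e : ∀ φ, Ps Γ (FreeGroup.mk (K.wd φ)) = (ofAdd ((K.bd φ).map (sg fun e => (K.lab e).2)).sum,
      FreeGroup.mk ((rl K fun e => (K.lab e).1).wd φ)) := fun φ => by
    rw [evl_mk]
    simp only [PC.wd, List.map_map]
    rfl
  have e0 := e none
  rw [a3, map_inv, h2] at e0
  refine ⟨rl K fun e => (K.lab e).1, ⟨⟨ob, wk, hne, hcw, fun f => ?_, ?_, ?_⟩⟩, ?_⟩
  · have := congrArg (List.map fun x : (A × Ch Γ) × Bool => (x.1.1, x.2)) (hwd f)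
    simp only [PC.wd, word, List.map_map] at this
    exact this
  · rw [← a2]
    refine sum_congr rfl fun f _ => ?_
    rw [hwd f, Wt, word, List.length_map]
  · have s := sum_odd K (sg fun e => (K.lab e).2) fun d => sg_rv _ d
    have e1 : -c = ((K.bd none).map (sg fun e => (K.lab e).2)).sum := congrArg Prod.fst e0
    rw [← e1, neg_add_eq_zero] at s
    rw [s]
    refine sum_congr rfl fun f _ => ?_
    have := e (some f)
    rw [hwd f, Ps_word] at this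
    exact congrArg Prod.fst this
  · exact (inv_one.symm.trans (congrArg Prod.snd e0)).symm

theorem Dat.fold {K : PC A} {k : ℕ} {c : Ch Γ} (D : Dat Γ K k c) {l : List (K.E × Bool)}
    (h : Folded K l) : ∃ K' : PC A, Nonempty (Dat Γ K' k c) ∧ K'.wd none = wo K l :=
  let ⟨K', e, h1, h2⟩ := h
  ⟨K', ⟨⟨D.ob ∘ e, D.wk ∘ e, fun _ => D.ne _, fun _ => D.cw _, fun f => (h1 f).trans (D.wd _),
    (e.sum_comp fun f => 2 * (D.wk f).length - 1).trans D.wt,
    (e.sum_comp fun f => cls Γ (D.ob f) (D.wk f)).trans D.cl⟩⟩, h2⟩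

open Classical in
/-- a closed reduced system of faces is empty -/
theorem closed_empty {K : PC A} (R : RD Γ K) {sp : A → Prop} {K0 n : ℕ} (h : Γ.Loc sp K0 n)
    (hK : Fintype.card K.F ≤ K0) (τ : K.E × Bool → K.E × Bool)
    (hτ : ∀ f, ∀ y ∈ K.bd (some f), τ (τ y) = y ∧ K.lab (τ y).1 = K.lab y.1 ∧
      ∃ f', τ y ∈ K.bd (some f') ∧ (R.ob f, R.ps f y) ≠ (R.ob f', R.ps f' (τ y))) :
    Fintype.card K.F = 0 := by
  let Z : K.F → Finset Γ.P := fun f => ((K.bd (some f)).map (R.ps f)).toFinset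
  have hZ : ∀ f p, p ∈ Z f ↔ ∃ d ∈ K.bd (some f), R.ps f d = p := fun f p => by simp [Z]
  let M : K.F × Γ.P → K.F × Γ.P → Prop := fun x y =>
    ∃ d, d ∈ K.bd (some x.1) ∧ R.ps x.1 d = x.2 ∧ τ d ∈ K.bd (some y.1) ∧ R.ps y.1 (τ d) = y.2
  have hMs : ∀ x y, M x y → M y x := by
    rintro x y ⟨d, h1, h2, h3, h4⟩
    exact ⟨τ d, h3, h4, by rwa [(hτ _ d h1).1], by rwa [(hτ _ d h1).1]⟩
  have hMu : ∀ x y y', M x y → M x y' → y = y' := by
    rintro x y y' ⟨d, h1, h2, h3, h4⟩ ⟨d', h1', h2', h3', h4'⟩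
    obtain rfl : d = d' := R.inj _ d h1 d' h1' (h2.trans h2'.symm)
    have e : y.1 = y'.1 := Option.some_injective _ (face_unique K h3 h3')
    rw [← e] at h4'
    exact Prod.ext e (h4.symm.trans h4')
  have hMn : ∀ x y, M x y → (R.ob x.1, x.2) ≠ (R.ob y.1, y.2) := by
    rintro x y ⟨d, h1, h2, h3, h4⟩
    obtain ⟨-, -, f', h5, h6⟩ := hτ _ d h1
    obtain rfl := Option.some_injective _ (face_unique K h3 h5)
    rwa [← h2, ← h4]
  let μ : K.F × Γ.P → K.F × Γ.P := fun x => if h : ∃ y, M x y then h.choose else x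
  have hμ1 : ∀ x y, M x y → μ x = y := fun x y h => by
    have h' : ∃ y, M x y := ⟨y, h⟩
    simp only [μ, dif_pos h']
    exact hMu x _ _ h'.choose_spec h
  have hμ2 : ∀ x, (¬ ∃ y, M x y) → μ x = x := fun x h => by simp only [μ, dif_neg h]
  have h1 := h K.F R.ob Z μ R.cyc (fun x => by
      by_cases hx : ∃ y, M x y
      · obtain ⟨y, hy⟩ := hx
        rw [hμ1 x y hy, hμ1 y x (hMs _ _ hy)]
      · rw [hμ2 x hx, hμ2 x hx])
    (fun x hx => by
      obtain ⟨y, hy⟩ : ∃ y, M x y := by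
        by_contra h'
        exact hx (hμ2 x h')
      rw [hμ1 x y hy]
      refine ⟨?_, ?_, hMn x y hy⟩
      · obtain ⟨d, h1, h2, -⟩ := hy
        exact (hZ _ _).2 ⟨d, h1, h2⟩
      · obtain ⟨d, h1, h2, h3, h4⟩ := hy
        rw [← h2, ← h4, R.ok _ d h1, R.ok _ _ h3, (hτ _ d h1).2.1]) hK
  rw [card_eq_zero.2 (eq_empty_of_forall_notMem fun x hx => ?_), mul_zero] at h1
  · exact Nat.le_zero.1 h1
  · obtain ⟨hx1, hx2, -⟩ := ((@mem_filter _ _ (_) _ _).1 hx).2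
    obtain ⟨d, a1, a2⟩ := (hZ _ _).1 hx1
    obtain ⟨-, -, f', h5, -⟩ := hτ _ d a1
    have h4 : M x (f', R.ps f' (τ d)) := ⟨d, a1, a2, h5, rfl⟩
    have h6 := hMn _ _ h4
    rw [← hμ1 _ _ h4, hx2] at h6
    exact h6 rfl

end Vale.Agent.N172B
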