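import Vale.Agent.N172B.Res
import Vale.Agent.N172B.Defs

/-! A finite aspherical presentation: fundamental cycles of spanning forests. -/

set_option linter.all false

namespace Vale.Agent.N172B

open Finset Vale.Agent.P172V VK VK.GS GD Multiplicative PresentedGroup

variable {A : Type} {Γ : GS A}

/-- a spanning forest of an object -/
theorem forest (o : Γ.O) : ∃ (b : Γ.Vx → Γ.Vx) (L : Γ.Vx → List (Γ.P × Bool)),
    (∀ p, Γ.ok o p → b (Γ.src p) = b (Γ.tgt p)) ∧ ∀ v, Γ.IsWk (b v) (L v) v ∧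
      ∀ x ∈ L v, Γ.ok o x.1 ∧ L (Γ.po (x.1, !x.2)) = L (Γ.po x) ++ [x] := by
  classical
  let R : Γ.Vx → Γ.Vx → Prop := fun u v => ∃ l, (∀ x ∈ l, Γ.ok o x.1) ∧ Γ.IsWk u l v
  have hsymm : ∀ u v, R u v → R v u := by
    rintro u v ⟨l, h1, h2⟩
    exact ⟨_, fun x hx => h1 (x.1, !x.2) (mem_invRev hx), isWk_invRev h2⟩
  have htrans : ∀ u v w, R u v → R v w → R u w := by
    rintro u v w ⟨l, h1, h2⟩ ⟨m, h3, h4⟩
    exact ⟨l ++ m, fun x hx => (List.mem_append.1 hx).elim (h1 x) (h3 x), isWk_append.2 ⟨v, h2, h4⟩⟩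
  let b : Γ.Vx → Γ.Vx := fun v => @Classical.epsilon _ ⟨v⟩ fun u => R u v
  have hbe : ∀ u v, R u v → b u = b v := by
    intro u v h
    have : (fun w => R w u) = fun w => R w v := by
      funext w
      exact propext ⟨fun h' => htrans _ _ _ h' h, fun h' => htrans _ _ _ h' (hsymm _ _ h)⟩
    simp only [b, this]
  have hb : ∀ v, ∃ k, ∃ l, (∀ x ∈ l, Γ.ok o x.1) ∧ Γ.IsWk (b v) l v ∧ l.length = k := fun v =>
    let ⟨l, h1, h2⟩ := Classical.epsilon_spec (p := fun u => R u v) ⟨v, [], by simp, rfl⟩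
    ⟨_, l, h1, h2, rfl⟩
  have step : ∀ v, Nat.find (hb v) ≠ 0 → ∃ x : Γ.P × Bool, Γ.ok o x.1 ∧ Γ.po (x.1, !x.2) = v ∧
      Nat.find (hb (Γ.po x)) < Nat.find (hb v) := by
    intro v hv
    obtain ⟨l, h1, h2, h3⟩ := Nat.find_spec (hb v)
    rcases l.eq_nil_or_concat' with rfl | ⟨m, x, rfl⟩
    · exact absurd h3.symm hv
    obtain ⟨w, a1, rfl, a2⟩ := isWk_append.1 h2
    have a3 := h1 x (by simp)
    refine ⟨x, a3, a2, (Nat.find_min' (hb _) ⟨m, fun y hy => h1 y (by simp [hy]), ?_, rfl⟩).trans_lt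
      (by rw [← h3]; simp)⟩
    rwa [hbe _ v ⟨[x], by simpa using a3, rfl, a2⟩]
  choose x hx1 hx2 hx3 using step
  let L : Γ.Vx → List (Γ.P × Bool) := (measure fun v => Nat.find (hb v)).wf.fix fun v L =>
    if h : Nat.find (hb v) ≠ 0 then L _ (hx3 v h) ++ [x v h] else []
  have hL : ∀ v, L v = if h : Nat.find (hb v) ≠ 0 then L (Γ.po (x v h)) ++ [x v h] else [] :=
    fun v => WellFounded.fix_eq _ _ v
  refine ⟨b, L, fun p hp => hbe _ _ ⟨[(p, true)], by simpa using hp, rfl, rfl⟩, fun v => ?_⟩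
  induction v using (measure fun v => Nat.find (hb v)).wf.induction with
  | _ v ih =>
  have e := hL v
  by_cases h : Nat.find (hb v) ≠ 0
  · rw [dif_pos h] at e
    obtain ⟨a1, a2⟩ := ih _ (hx3 v h)
    rw [hbe _ v ⟨[x v h], by simpa using hx1 v h, rfl, hx2 v h⟩] at a1
    refine ⟨e ▸ isWk_append.2 ⟨_, a1, rfl, hx2 v h⟩, fun y hy => ?_⟩
    rcases List.mem_append.1 (e ▸ hy) with hy | hy
    · exact a2 y hy
    · rw [List.mem_singleton.1 hy, hx2]
      exact ⟨hx1 v h, e⟩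
  · rw [dif_neg h] at e
    obtain ⟨l, -, h2, h3⟩ := Nat.find_spec (hb v)
    rw [not_not.1 h, List.length_eq_zero_iff] at h3
    exact ⟨by rwa [e, ← h3], by simp [e]⟩

theorem sum_invRev {E M : Type} [AddCommGroup M] (c : E → M) (l : List (E × Bool)) :
    ((FreeGroup.invRev l).map (sg c)).sum = -(l.map (sg c)).sum := by
  have := evl_mk c id (FreeGroup.invRev l)
  rw [← FreeGroup.inv_mk, map_inv, evl_mk] at this
  exact (congrArg Prod.fst this).symm

theorem fox {ι M : Type} [AddCommGroup M] (e : Γ.Gp × A → M) (o : ι → Γ.O) (v : ι → Γ.Vx)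
    (c : ι → List (Γ.P × Bool)) (h1 : ∀ i, ∀ x ∈ c i, Γ.ok (o i) x.1)
    (h2 : ∀ i, Γ.IsWk (v i) (c i) (v i)) (w : FreeGroup (FreeGroup A × ι))
    (hw : FreeGroup.lift (fun x : FreeGroup A × ι =>
      x.1 * FreeGroup.mk (Γ.word (o x.2) (c x.2)) * x.1⁻¹) w = 1) :
    FreeGroup.lift (fun x : FreeGroup A × ι => ofAdd (((Cv Γ).word
      (PresentedGroup.mk _ x.1 * (pot Γ (o x.2) (v x.2))⁻¹, o x.2) (c x.2)).map (sg e)).sum) w
      = 1 := by
  let σ : A → Equiv.Perm (Γ.Gp × M) := fun a =>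
    ⟨fun q => (q.1 * of a, q.2 + e (q.1, a)),
      fun q => (q.1 * (of a)⁻¹, q.2 - e (q.1 * (of a)⁻¹, a)), fun q => by simp, fun q => by simp⟩
  let θ := FreeGroup.lift fun a => (σ a)⁻¹
  have key : ∀ (h : Γ.Gp) (o : Γ.O) (l : List (Γ.P × Bool)) u v x, (∀ x ∈ l, Γ.ok o x.1) →
      Γ.IsWk u l v → (θ (FreeGroup.mk (Γ.word o l)))⁻¹ (h * pot Γ o u, x) =
      (h * pot Γ o v, x + (((Cv Γ).word (h, o) l).map (sg e)).sum) := by
    intro h o l
    induction l with
    | nil =>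
      rintro u _ x - rfl
      simp [word, ← FreeGroup.one_eq_mk]
    | cons y l ih =>
      rintro u v x h1 ⟨rfl, h2⟩
      rw [show y :: l = [y] ++ l from rfl, word_append, word_append, ← FreeGroup.mul_mk, map_mul,
        mul_inv_rev, Equiv.Perm.mul_apply, List.map_append, List.sum_append, ← add_assoc,
        ← ih _ _ _ (fun y hy => h1 y (by simp [hy])) h2]
      congr 1
      obtain ⟨p, b⟩ := y
      have := pot_spec Γ (h1 (p, b) (by simp))
      cases b
      · have e' : pot Γ o (Γ.tgt p) * (of (Γ.lab o p))⁻¹ = pot Γ o (Γ.src p) := by simp [← this]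
        simp only [θ, word, List.map_cons, List.map_nil, FreeGroup.lift_mk, cond_false, inv_inv,
          List.prod_cons, List.prod_nil, mul_one, List.sum_cons, List.sum_nil, add_zero]
        show (h * pot Γ o (Γ.tgt p) * _, x - e (h * pot Γ o (Γ.tgt p) * _, _)) = _
        rw [mul_assoc, e', sub_eq_add_neg]
        rfl
      · simp only [θ, word, List.map_cons, List.map_nil, FreeGroup.lift_mk, cond_true, inv_inv,
          List.prod_cons, List.prod_nil, mul_one, List.sum_cons, List.sum_nil, add_zero]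
        show (h * pot Γ o (Γ.src p) * _, _) = _
        rw [mul_assoc, this]
        rfl
  have k2 : ∀ u g, ∃ y, ∀ x, (θ u)⁻¹ (g, x) = (g * PresentedGroup.mk _ u, x + y) := by
    intro u
    induction u using FreeGroup.induction_on with
    | C1 => exact fun g => ⟨0, by simp⟩
    | of a => exact fun g => ⟨e (g, a), fun x => by rw [FreeGroup.lift_apply_of, inv_inv]; rfl⟩
    | inv_of a _ =>
      exact fun g => ⟨-e (g * (of a)⁻¹, a), fun x => by
        rw [map_inv, FreeGroup.lift_apply_of, inv_inv, ← sub_eq_add_neg]; rfl⟩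
    | mul u v hu hv =>
      intro g
      obtain ⟨y, hy⟩ := hu g
      obtain ⟨z, hz⟩ := hv (g * PresentedGroup.mk _ u)
      exact ⟨y + z, fun x => by
        rw [map_mul, mul_inv_rev, Equiv.Perm.mul_apply, hy, hz, map_mul, mul_assoc, add_assoc]⟩
  generalize hα : FreeGroup.lift (fun x : FreeGroup A × ι =>
      x.1 * FreeGroup.mk (Γ.word (o x.2) (c x.2)) * x.1⁻¹) = α at hw
  generalize hβ : FreeGroup.lift (fun x : FreeGroup A × ι => ofAdd (((Cv Γ).word
      (PresentedGroup.mk _ x.1 * (pot Γ (o x.2) (v x.2))⁻¹, o x.2) (c x.2)).map (sg e)).sum) = β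
  have k3 : ∀ w x, (θ (α w))⁻¹ (1, x) = (1, x + toAdd (β w)) := by
    intro w
    induction w using FreeGroup.induction_on with
    | C1 => simp
    | of a =>
      intro x
      obtain ⟨y, hy⟩ := k2 a.1 1
      have := key (PresentedGroup.mk _ a.1 * (pot Γ (o a.2) (v a.2))⁻¹) _ _ _ _ (x + y) (h1 a.2)
        (h2 a.2)
      rw [inv_mul_cancel_right] at this
      rw [← hα, ← hβ, FreeGroup.lift_apply_of, FreeGroup.lift_apply_of, map_mul, map_mul,
        mul_inv_rev, mul_inv_rev, Equiv.Perm.mul_apply, Equiv.Perm.mul_apply, hy, one_mul, this,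
        map_inv, inv_inv, ← Equiv.Perm.eq_inv_iff_eq, hy, one_mul, add_right_comm]
      rfl
    | inv_of a h =>
      intro x
      rw [map_inv, map_inv, inv_inv, ← Equiv.Perm.eq_inv_iff_eq, h, map_inv, toAdd_inv,
        neg_add_cancel_right]
    | mul u v hu hv =>
      intro x
      rw [map_mul, map_mul, mul_inv_rev, Equiv.Perm.mul_apply, hu, hv, map_mul, toAdd_mul, add_assoc]
  have := congrArg Prod.snd (k3 w 0)
  rw [hw, map_one, inv_one, zero_add] at this
  exact this.symm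

theorem pres [Finite Γ.O] (hA : Asph (Cv Γ)) : ∃ (ι : Type) (_ : Finite ι) (r : ι → FreeGroup A),
    Nonempty (Γ.Gp ≃* PresentedGroup (Set.range r)) ∧ Aspherical r := by
  classical
  choose b L hb hL using forest (Γ := Γ)
  let ι := {q : Γ.O × Γ.P // Γ.ok q.1 q.2 ∧ ∀ v, ∀ x ∈ L q.1 v, x.1 ≠ q.2}
  let c : Γ.O × Γ.P → List (Γ.P × Bool) := fun q =>
    L q.1 (Γ.src q.2) ++ ([(q.2, true)] ++ FreeGroup.invRev (L q.1 (Γ.tgt q.2)))
  have c1 : ∀ i : ι, ∀ x ∈ c i.1, Γ.ok i.1.1 x.1 := fun i x hx => by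
    simp only [c, List.mem_append, List.mem_singleton] at hx
    rcases hx with hx | rfl | hx
    · exact ((hL _ _).2 x hx).1
    · exact i.2.1
    · exact ((hL _ _).2 _ (mem_invRev hx)).1
  have c2 : ∀ i : ι, Γ.IsWk (b i.1.1 (Γ.src i.1.2)) (c i.1) (b i.1.1 (Γ.src i.1.2)) := fun i =>
    isWk_append.2 ⟨_, (hL _ _).1, isWk_append.2 ⟨Γ.tgt i.1.2, ⟨rfl, rfl⟩,
      hb _ _ i.2.1 ▸ isWk_invRev (hL _ _).1⟩⟩
  let r : ι → FreeGroup A := fun i => FreeGroup.mk (Γ.word i.1.1 (c i.1))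
  have hN : Subgroup.normalClosure Γ.rels = Subgroup.normalClosure (Set.range r) := by
    refine le_antisymm (Subgroup.normalClosure_le_normal ?_) (Subgroup.normalClosure_mono ?_)
    · rintro _ ⟨o, l, ⟨h1, v, h2⟩, rfl⟩
      let m := fun l => PresentedGroup.mk (Set.range r) (FreeGroup.mk (Γ.word o l))
      have hm : ∀ l l', m (l ++ l') = m l * m l' := fun l l' => by
        simp only [m, word_append, ← FreeGroup.mul_mk, map_mul]
      have hi : ∀ l, m (FreeGroup.invRev l) = (m l)⁻¹ := fun l => by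
        simp only [m, word_invRev, ← FreeGroup.inv_mk, map_inv]
      have a1 : ∀ p, Γ.ok o p → m (L o (Γ.src p)) * m [(p, true)] = m (L o (Γ.tgt p)) := by
        intro p hp
        by_cases ht : ∀ v, ∀ x ∈ L o v, x.1 ≠ p
        · have : m (c (o, p)) = 1 := one_of_mem ⟨⟨(o, p), hp, ht⟩, rfl⟩
          rwa [hm, hm, hi, ← mul_assoc, mul_inv_eq_one] at this
        · push Not at ht
          obtain ⟨v, ⟨_, _ | _⟩, hx, rfl⟩ := ht
          · rw [show L o (Γ.src _) = _ from ((hL o v).2 _ hx).2, hm, mul_assoc]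
            exact mul_eq_left.2 (mul_eq_one_iff_eq_inv.2 (hi [(_, true)]))
          · rw [show L o (Γ.tgt _) = _ from ((hL o v).2 _ hx).2, hm]
            rfl
      have a2 : ∀ l u v, (∀ x ∈ l, Γ.ok o x.1) → Γ.IsWk u l v → m (L o u) * m l = m (L o v) := by
        intro l
        induction l with
        | nil =>
          rintro u _ - rfl
          exact mul_one _
        | cons x l ih =>
          rintro u v h1 ⟨rfl, h2⟩
          rw [show x :: l = [x] ++ l from rfl, hm, ← mul_assoc,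
            ← ih _ _ (fun y hy => h1 y (by simp [hy])) h2]
          congr 1
          obtain ⟨p, _ | _⟩ := x
          · exact (congrArg _ (hi [(p, true)])).trans
              (mul_inv_eq_iff_eq_mul.2 (a1 p (h1 (p, false) (by simp))).symm)
          · exact a1 p (h1 (p, true) (by simp))
      exact mk_eq_one_iff.1 (mul_eq_left.1 (a2 l v v h1 h2))
    · rintro _ ⟨i, rfl⟩
      exact ⟨_, _, ⟨c1 i, _, c2 i⟩, rfl⟩
  let E : Γ.Gp ≃* PresentedGroup (Set.range r) := QuotientGroup.quotientMulEquivOfEq hN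
  refine ⟨ι, inferInstance, r, ⟨E⟩, fun w hw => ?_⟩
  obtain ⟨κ, -, -, hκ⟩ := contraction hA
  let s : (Γ.Gp × Γ.O) × Γ.P → PresentedGroup (Set.range r) × ι →₀ ℤ := fun x =>
    if h : Γ.ok x.1.2 x.2 ∧ ∀ v, ∀ y ∈ L x.1.2 v, y.1 ≠ x.2 then Finsupp.single
      (E (x.1.1 * pot Γ x.1.2 (b x.1.2 (Γ.src x.2))), ⟨(x.1.2, x.2), h⟩) 1 else 0
  rw [← fox (fun x => Finsupp.linearCombination ℤ s (κ x)) (fun i : ι => i.1.1) _ (fun i => c i.1)
    c1 c2 w hw]
  congr 2
  funext x
  rw [← map_sg, hκ _ _ (isCW_re.2 ⟨c1 x.2, _, c2 x.2⟩), cls, map_sg]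
  have h0 : ∀ h v, ((L x.2.1.1 v).map (sg fun p => s ((h, x.2.1.1), p))).sum = 0 := fun h v =>
    List.sum_eq_zero (List.forall_mem_map.2 fun y hy => by
      have : s ((h, x.2.1.1), y.1) = 0 := dif_neg fun a => a.2 v y hy rfl
      simp [sg, this])
  simp only [Finsupp.linearCombination_single, one_smul, c, List.map_append, List.sum_append,
    sum_invRev, h0, List.map_cons, List.map_nil, List.sum_cons, List.sum_nil, sg, if_true, neg_zero,
    add_zero, zero_add]
  simp only [s, dif_pos x.2.2, inv_mul_cancel_right]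
  rfl

end Vale.Agent.N172B
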