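import Vale.Agent.N172B.Sphere
import Vale.Agent.N172B.Coh

/-! The Cayley complex of an aspherical graph system: a free resolution of length two. -/

set_option linter.all false

namespace Vale.Agent.N172B

open Finset Vale.Agent.P172V VK VK.GS GD Multiplicative PresentedGroup CategoryTheory Limits

variable {A : Type} (Γ : GS A)

noncomputable def pot (o : Γ.O) : Γ.Vx → Γ.Gp := (GS.exists_pot o).choose

theorem pot_spec {o : Γ.O} {p : Γ.P} (h : Γ.ok o p) :
    pot Γ o (Γ.src p) * of (Γ.lab o p) = pot Γ o (Γ.tgt p) := (GS.exists_pot o).choose_spec p h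

/-- the copies of the objects in the Cayley graph -/
noncomputable abbrev Cv : GS (Γ.Gp × A) :=
  re Γ (Γ.Gp × Γ.O) Prod.snd fun o p => (o.1 * pot Γ o.2 (Γ.src p), Γ.lab o.2 p)

variable {Γ}

theorem loc_cv {sp : A → Prop} {K D : ℕ} (h : Γ.Loc sp K D) :
    (Cv Γ).Loc (fun x => sp x.2) K D := by
  intro F _ _ ob Z μ h1 h2 h3 h4
  refine h F (fun f => (ob f).2) Z μ h1 h2 (fun x hx => ?_) h4
  obtain ⟨a, b, c⟩ := h3 x hx
  refine ⟨a, congrArg Prod.snd b, fun e => c ?_⟩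
  obtain ⟨e1, e2⟩ := Prod.ext_iff.1 e
  have e3 := congrArg Prod.fst b
  simp only at e1 e2 e3
  rw [← e1, ← e2] at e3
  exact Prod.ext (Prod.ext (mul_right_cancel e3) e1) e2

theorem tele {Q : Type} [Group Q] (t : Γ.Gp → Q) (h : Γ.Gp) (o : Γ.O) {l : List (Γ.P × Bool)} :
    ∀ {u v}, (∀ x ∈ l, Γ.ok o x.1) → Γ.IsWk u l v →
      FreeGroup.lift (fun x : Γ.Gp × A => (t x.1)⁻¹ * t (x.1 * of x.2))
        (FreeGroup.mk ((Cv Γ).word (h, o) l)) = (t (h * pot Γ o u))⁻¹ * t (h * pot Γ o v) := by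
  simp only [FreeGroup.lift_mk, word]
  induction l with
  | nil =>
    rintro u _ - rfl
    simp
  | cons x l ih =>
    rintro u v h1 ⟨rfl, h2⟩
    rw [List.map_cons, List.map_cons, List.prod_cons, ih (fun y hy => h1 y (by simp [hy])) h2]
    obtain ⟨p, b⟩ := x
    have := pot_spec Γ (h1 (p, b) (by simp))
    cases b <;> simp [po, mul_assoc, this]

theorem exists_lift : ∃ t : Γ.Gp → (Cv Γ).Gp, ∀ g a, t (g * of a) = t g * of (g, a) := by
  let σ : A → Equiv.Perm (Γ.Gp × (Cv Γ).Gp) := fun a =>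
    ⟨fun q => (q.1 * of a, q.2 * of (q.1, a)),
      fun q => (q.1 * (of a)⁻¹, q.2 * (of (q.1 * (of a)⁻¹, a))⁻¹),
      fun q => by simp, fun q => by simp⟩
  have key : ∀ (h : Γ.Gp) (o : Γ.O) (l : List (Γ.P × Bool)) u v x, (∀ x ∈ l, Γ.ok o x.1) →
      Γ.IsWk u l v → (FreeGroup.lift (fun a => (σ a)⁻¹) (FreeGroup.mk (Γ.word o l)))⁻¹
        (h * pot Γ o u, x) =
      (h * pot Γ o v, x * PresentedGroup.mk _ (FreeGroup.mk ((Cv Γ).word (h, o) l))) := by
    intro h o l
    induction l with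
    | nil =>
      rintro u _ x - rfl
      simp [word, ← FreeGroup.one_eq_mk]
    | cons y l ih =>
      rintro u v x h1 ⟨rfl, h2⟩
      rw [show y :: l = [y] ++ l from rfl, word_append, word_append, ← FreeGroup.mul_mk,
        ← FreeGroup.mul_mk, map_mul, map_mul, mul_inv_rev, Equiv.Perm.mul_apply, ← mul_assoc,
        ← ih _ _ _ (fun y hy => h1 y (by simp [hy])) h2]
      congr 1
      obtain ⟨p, b⟩ := y
      have := pot_spec Γ (h1 (p, b) (by simp))
      cases b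
      · have e : pot Γ o (Γ.tgt p) * (of (Γ.lab o p))⁻¹ = pot Γ o (Γ.src p) := by simp [← this]
        simp only [word, List.map_cons, List.map_nil, FreeGroup.lift_mk, cond_false, inv_inv,
          List.prod_cons, List.prod_nil, mul_one]
        show (h * pot Γ o (Γ.tgt p) * _, x * (of (h * pot Γ o (Γ.tgt p) * _, _))⁻¹) = _
        rw [mul_assoc, e]
        rfl
      · simp only [word, List.map_cons, List.map_nil, FreeGroup.lift_mk, cond_true, inv_inv,
          List.prod_cons, List.prod_nil, mul_one]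
        show (h * pot Γ o (Γ.src p) * _, _) = _
        rw [mul_assoc, this]
        rfl
  let θ : Γ.Gp →* Equiv.Perm (Γ.Gp × (Cv Γ).Gp) := toGroup (f := fun a => (σ a)⁻¹) (by
    rintro _ ⟨o, l, ⟨h1, v, h2⟩, rfl⟩
    refine inv_eq_one.1 (Equiv.ext fun q => ?_)
    have := key (q.1 * (pot Γ o v)⁻¹) o l v v q.2 h1 h2
    rw [cw_one (isCW_re.2 ⟨h1, v, h2⟩), inv_mul_cancel_right, mul_one] at this
    exact this)
  have h1 : ∀ g : Γ.Gp, ∀ q, (θ g q).1 = q.1 * g⁻¹ := by
    intro g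
    induction (closure_range_of Γ.rels ▸ Subgroup.mem_top g :
      g ∈ Subgroup.closure (Set.range of)) using Subgroup.closure_induction with
    | mem x hx =>
      obtain ⟨a, rfl⟩ := hx
      intro q
      simp only [θ, toGroup.of]
      rfl
    | one => simp
    | mul x y _ _ hx hy => intro q; simp [hx, hy, mul_assoc]
    | inv x _ hx =>
      intro q
      have := hx (θ x⁻¹ q)
      rw [← Equiv.Perm.mul_apply, ← map_mul, mul_inv_cancel, map_one] at this
      rw [show q.1 = _ from this, inv_inv, inv_mul_cancel_right]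
  refine ⟨fun g => (θ g⁻¹ (1, 1)).2, fun g a => ?_⟩
  have h2 : (θ g⁻¹ (1, 1)).1 = g := by rw [h1, one_mul, inv_inv]
  simp only [mul_inv_rev, map_mul, Equiv.Perm.mul_apply, map_inv θ (of a)]
  simp only [θ, toGroup.of, inv_inv] at h2 ⊢
  show _ * of (_, a) = _
  rw [h2]

theorem Xc.ind {k : ℕ} {h : HH Γ} (a : Xc Γ k h) (P : Subgroup (HH Γ)) [hP : P.Normal]
    (hw : ∀ o l, Γ.IsCW o l → (ofAdd (cls Γ o l), FreeGroup.mk (Γ.word o l)) ∈ P) : h ∈ P := by
  obtain ⟨u, h1, rfl⟩ := a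
  induction h1 with
  | nil => exact map_one (Ps Γ) ▸ P.one_mem
  | cons k u v r hr _ ih =>
    obtain ⟨o, l, -, h2, rfl⟩ := hr
    rw [map_mul, map_mul, map_mul, map_inv, Ps_word]
    exact P.mul_mem (hP.conj_mem _ (hw o l ((isCW_re (π := id)).1 h2)) _) ih

/-- pairs with an expression -/
def Hx (Γ : GS A) : Subgroup (HH Γ) where
  carrier := {h | ∃ k, Xc Γ k h}
  mul_mem' := fun ⟨_, a⟩ ⟨_, b⟩ => ⟨_, a.mul b⟩
  one_mem' := ⟨0, Xc.one⟩
  inv_mem' := fun ⟨_, a⟩ => ⟨_, a.inv⟩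

theorem Hx_normal : (Hx Γ).Normal := ⟨fun _ ⟨_, a⟩ g => ⟨_, a.conj g⟩⟩

theorem cw_mem {o : Γ.O} {l : List (Γ.P × Bool)} (h : Γ.IsCW o l) :
    (ofAdd (cls Γ o l), FreeGroup.mk (Γ.word o l)) ∈ Hx Γ := by
  by_cases h0 : l = []
  · subst h0
    exact (Hx Γ).one_mem
  · exact ⟨_, _, by simpa using Ex.single (W := Wt) (show (Gm Γ).word o l ∈ Rw (Gm Γ) from
      ⟨o, l, h0, isCW_re.2 h, rfl⟩) 1, Ps_word Γ o l⟩

theorem exists_cls {u : FreeGroup A} (h : PresentedGroup.mk Γ.rels u = 1) :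
    ∃ c, (ofAdd c, u) ∈ Hx Γ := by
  have : ((Hx Γ).map (MonoidHom.snd _ _)).Normal := Subgroup.Normal.map Hx_normal _
    Prod.snd_surjective
  obtain ⟨x, h1, rfl⟩ := Subgroup.normalClosure_le_normal (N := (Hx Γ).map (MonoidHom.snd _ _))
    (by rintro _ ⟨o, l, h, rfl⟩; exact ⟨_, cw_mem h, rfl⟩) (mk_eq_one_iff.1 h)
  exact ⟨_, h1⟩

/-- a contraction of the Cayley complex in degree one -/
theorem contraction (hA : Asph (Cv Γ)) : ∃ (κ : Γ.Gp × A → Ch (Cv Γ))
    (γ : Γ.Gp → FreeGroup (Γ.Gp × A)),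
    (∀ x, (ofAdd (κ x), FreeGroup.of x * ((γ x.1)⁻¹ * γ (x.1 * of x.2))⁻¹) ∈ Hx (Cv Γ)) ∧
    ∀ o l, (Cv Γ).IsCW o l → (((Cv Γ).word o l).map (sg κ)).sum = cls (Cv Γ) o l := by
  obtain ⟨t, ht⟩ := exists_lift (Γ := Γ)
  choose γ hγ using fun g => mk_surjective (Cv Γ).rels (t g)
  choose κ hκ using fun x : Γ.Gp × A => exists_cls (Γ := Cv Γ)
    (u := FreeGroup.of x * ((γ x.1)⁻¹ * γ (x.1 * of x.2))⁻¹) (by
      rw [map_mul, map_inv, map_mul, map_inv, hγ, hγ, ht, inv_mul_cancel_left]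
      exact mul_inv_cancel _)
  refine ⟨κ, γ, hκ, fun o l h => ?_⟩
  have := Hx_normal (Γ := Cv Γ)
  have e : (QuotientGroup.mk' (Hx (Cv Γ))).comp (evl κ id) = (QuotientGroup.mk' _).comp
      ((MonoidHom.inr _ _).comp (FreeGroup.lift fun x : Γ.Gp × A => (γ x.1)⁻¹ * γ (x.1 * of x.2))) :=
    FreeGroup.ext_hom _ _ fun x => by
      refine QuotientGroup.eq_iff_div_mem.2 ?_
      simpa [evl, div_eq_mul_inv] using hκ x
  have e1 := DFunLike.congr_fun e (FreeGroup.mk ((Cv Γ).word o l))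
  obtain ⟨h1, v, h2⟩ := isCW_re.1 h
  simp only [MonoidHom.comp_apply] at e1
  rw [tele γ o.1 o.2 h1 h2, inv_mul_cancel, map_one, map_one, evl_mk] at e1
  obtain ⟨k, hk⟩ := (Hx (Cv Γ)).mul_mem ((QuotientGroup.eq_one_iff _).1 e1)
    ((Hx _).inv_mem (cw_mem h))
  refine sub_eq_zero.1 (hA k _ ?_)
  rwa [show List.map (fun x => (id x.1, x.2)) ((Cv Γ).word o l) = _ from List.map_id' _,
    Prod.inv_mk, Prod.mk_mul_mk, mul_inv_cancel, ← ofAdd_neg, ← ofAdd_add, ← sub_eq_add_neg] at hk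

/-- the linear map with given values on the basis `single a (single g 1)` -/
noncomputable def lin {G α M : Type} [AddCommGroup M] (f : G × α → M) :
    (α →₀ MonoidAlgebra ℤ G) →ₗ[ℤ] M :=
  Finsupp.lsum ℤ fun a => Finsupp.linearCombination ℤ (fun g => f (g, a)) ∘ₗ
    (MonoidAlgebra.coeffLinearEquiv ℤ).toLinearMap

theorem lin_single {G α M : Type} [AddCommGroup M] (f : G × α → M) (g : G) (a : α) :
    lin f (Finsupp.single a (.single g 1)) = f (g, a) := by simp [lin]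

theorem map_sg {E M N : Type} [AddCommGroup M] [AddCommGroup N] (φ : M →ₗ[ℤ] N) (c : E → M)
    (l : List (E × Bool)) : φ (l.map (sg c)).sum = (l.map (sg fun e => φ (c e))).sum := by
  rw [map_list_sum, List.map_map]
  congr 2
  funext x
  simp only [sg, Function.comp_apply]
  split_ifs <;> simp

theorem sg_word {B M : Type} [AddCommGroup M] (Δ : GS B) (c : B → M) (o : Δ.O)
    (l : List (Δ.P × Bool)) :
    ((Δ.word o l).map (sg c)).sum = (l.map (sg fun p => c (Δ.lab o p))).sum := by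
  rw [word, List.map_map]
  rfl

theorem res [Finite Γ.O] (hA : Asph (Cv Γ)) (M : Rep ℤ Γ.Gp) (n : ℕ) (hn : 3 ≤ n) :
    IsZero (groupCohomology M n) := by
  classical
  obtain ⟨κ, γ, hκ, hκw⟩ := contraction hA
  let Z : Submodule ℤ (Ch Γ) := Submodule.span ℤ {z | ∃ o l, Γ.IsCW o l ∧ cls Γ o l = z}
  let b := Module.Free.chooseBasis ℤ Z
  let e : Γ.Gp × A → (A →₀ MonoidAlgebra ℤ Γ.Gp) := fun x => Finsupp.single x.2 (.single x.1 1)
  let φ : Ch (Cv Γ) →ₗ[ℤ] (A →₀ MonoidAlgebra ℤ Γ.Gp) :=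
    Finsupp.linearCombination ℤ fun x => e ((Cv Γ).lab x.1 x.2)
  let tr : Γ.Gp → Ch Γ →ₗ[ℤ] Ch (Cv Γ) := fun h => Finsupp.lmapDomain ℤ ℤ fun x => ((h, x.1), x.2)
  have htr : ∀ h o l, tr h (cls Γ o l) = cls (Cv Γ) (h, o) l := fun h o l => by
    rw [cls, map_sg]
    simp only [cls, tr, Finsupp.lmapDomain_apply, Finsupp.mapDomain_single]
  have hφ : ∀ o l, φ (cls (Cv Γ) o l) = (((Cv Γ).word o l).map (sg e)).sum := fun o l => by
    simp only [cls, map_sg, sg_word, φ, Finsupp.linearCombination_single, one_smul]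
  let T := lin fun x : Γ.Gp × Module.Free.ChooseBasisIndex ℤ Z => tr x.1 (b x.2)
  let d2 := Rep.freeLift ℤ Γ.Gp (Rep.free ℤ Γ.Gp A) fun i => φ (tr 1 (b i))
  let d1 := Rep.freeLift ℤ Γ.Gp (Rep.leftRegular ℤ Γ.Gp) fun a : A =>
    MonoidAlgebra.single (of a) 1 - .single 1 1
  let D1 : (A →₀ MonoidAlgebra ℤ Γ.Gp) →ₗ[ℤ] MonoidAlgebra ℤ Γ.Gp := d1.hom.toLinearMap
  have hD1 : ∀ x, D1 (e x) = .single (x.1 * of x.2) 1 - .single x.1 1 := fun x => by
    simp [D1, d1, e]
  have h2 : ∀ x, d2.hom x = φ (T x) := by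
    have : ∀ h, Representation.free ℤ Γ.Gp A h ∘ₗ φ ∘ₗ tr 1 = φ ∘ₗ tr h := fun h => by
      ext
      simp [φ, tr, e]
    refine DFunLike.congr_fun (f := d2.hom.toLinearMap) (g := φ ∘ₗ T) ?_
    ext i g : 3
    simpa [d2, T, lin_single] using DFunLike.congr_fun (this g) (b i).1
  have hZ : ∀ {N : Type} [AddCommGroup N] (f : Ch (Cv Γ) →ₗ[ℤ] N),
      (∀ o l, (Cv Γ).IsCW o l → f (cls (Cv Γ) o l) = 0) → ∀ x, f (T x) = 0 := by
    intro N _ f hf
    refine DFunLike.congr_fun (f := f ∘ₗ T) (g := 0) ?_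
    ext i g : 3
    have : Z ≤ LinearMap.ker (f ∘ₗ tr g) := Submodule.span_le.2 (by
      rintro _ ⟨o, l, h, rfl⟩
      exact (congrArg f (htr g o l)).trans (hf _ l (isCW_re.2 h)))
    simpa [T, lin_single] using this (b i).2
  have hT : ∀ o l, (Cv Γ).IsCW o l → cls (Cv Γ) o l ∈ LinearMap.range T := by
    intro o l h
    have : ⊤ ≤ (LinearMap.range T).comap (tr o.1 ∘ₗ Z.subtype) :=
      b.span_eq ▸ Submodule.span_le.2 (by
        rintro _ ⟨i, rfl⟩
        exact ⟨_, lin_single _ o.1 i⟩)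
    exact htr o.1 o.2 l ▸ this (x := ⟨_, Submodule.subset_span ⟨o.2, l, isCW_re.1 h, rfl⟩⟩) trivial
  let ab : FreeGroup (Γ.Gp × A) →* Multiplicative (A →₀ MonoidAlgebra ℤ Γ.Gp) :=
    (MonoidHom.fst _ _).comp (evl e id)
  refine cd_two d2 d1 ((injective_iff_map_eq_zero _).2 fun x hx => ?_)
    (fun x => ⟨fun hx => ?_, ?_⟩) (fun x => ⟨fun hx => ?_, ?_⟩) M n hn
  · have a1 := hZ (lin κ ∘ₗ φ - LinearMap.id) (fun o l h => by
      simp only [LinearMap.sub_apply, LinearMap.comp_apply, hφ, map_sg, e, lin_single, hκw o l h,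
        LinearMap.id_apply, sub_self]) x
    rw [LinearMap.sub_apply, LinearMap.comp_apply, ← h2, hx, map_zero, zero_sub, neg_eq_zero] at a1
    ext i h
    let cf : (Module.Free.ChooseBasisIndex ℤ Z →₀ MonoidAlgebra ℤ Γ.Gp) →ₗ[ℤ] (_ →₀ ℤ) :=
      Finsupp.mapRange.linearMap (Finsupp.lapply h ∘ₗ (MonoidAlgebra.coeffLinearEquiv ℤ).toLinearMap)
    have hi : Function.Injective fun x : Γ.O × Γ.P => ((h, x.1), x.2) := fun x y e => by
      simpa [Prod.ext_iff] using e
    have a2 : Finsupp.lcomapDomain _ hi ∘ₗ T =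
        Z.subtype ∘ₗ Finsupp.linearCombination ℤ b ∘ₗ cf := by
      ext j g : 3
      have : Finsupp.lcomapDomain _ hi ∘ₗ tr g = if g = h then LinearMap.id else 0 := by
        ext x y
        by_cases e : g = h <;> simp [tr, e, Finsupp.single_apply, Prod.ext_iff]
      have := DFunLike.congr_fun this (b j).1
      by_cases e : g = h <;> simpa [T, lin_single, cf, e] using this
    have a3 := DFunLike.congr_fun a2 x
    simp only [LinearMap.comp_apply, show T x = 0 from a1, map_zero] at a3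
    exact DFunLike.congr_fun (linearIndependent_iff.1 b.linearIndependent _
      (Subtype.ext a3.symm)) i
  · let τ : MonoidAlgebra ℤ Γ.Gp →ₗ[ℤ] (A →₀ MonoidAlgebra ℤ Γ.Gp) :=
      Finsupp.linearCombination ℤ (fun g => toAdd (ab (γ g))) ∘ₗ
        (MonoidAlgebra.coeffLinearEquiv ℤ).toLinearMap
    have a1 : φ ∘ₗ lin κ + τ ∘ₗ D1 = LinearMap.id := by
      ext a g : 3
      obtain ⟨k, hk⟩ := hκ (g, a)
      have := hk.ind (((AddMonoidHom.toMultiplicative φ.toAddMonoidHom).comp (MonoidHom.fst _ _)) /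
        ab.comp (MonoidHom.snd _ _)).ker fun o l _ => by
          simp only [MonoidHom.mem_ker, MonoidHom.div_apply, div_eq_one, ab, MonoidHom.comp_apply,
            MonoidHom.coe_snd, evl_mk]
          exact hφ o l
      have a2 : φ (κ (g, a)) = e (g, a) - (toAdd (ab (γ (g * of a))) - toAdd (ab (γ g))) := by
        rw [MonoidHom.mem_ker, MonoidHom.div_apply, div_eq_one] at this
        refine Eq.trans this ?_
        simp only [MonoidHom.comp_apply, MonoidHom.coe_snd, map_mul, map_inv]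
        rw [show ab (FreeGroup.of (g, a)) = ofAdd (e (g, a)) by simp [ab, evl]]
        show e (g, a) + -(-toAdd (ab (γ g)) + toAdd (ab (γ (g * of a)))) = _
        abel
      have a3 := hD1 (g, a)
      simp only [e] at a2 a3
      simp [lin_single, a2, a3, τ]
    have a2 := DFunLike.congr_fun a1 x
    rw [LinearMap.add_apply, LinearMap.comp_apply, LinearMap.comp_apply, show D1 x = 0 from hx,
      map_zero, add_zero] at a2
    have a3 : (LinearMap.range T).mkQ ∘ₗ lin κ = 0 := by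
      ext a g : 3
      obtain ⟨k, hk⟩ := hκ (g, a)
      have := hk.ind ((AddMonoidHom.toMultiplicative (LinearMap.range T).mkQ.toAddMonoidHom).comp
        (MonoidHom.fst _ _)).ker fun o l h => by
          exact (Submodule.Quotient.mk_eq_zero (LinearMap.range T)).2 (hT o l h)
      simpa [lin_single] using this
    obtain ⟨y, hy⟩ := (Submodule.Quotient.mk_eq_zero _).1 (DFunLike.congr_fun a3 x)
    exact ⟨y, by rw [h2, hy, a2]; rfl⟩
  · rintro ⟨y, rfl⟩
    rw [h2]
    refine hZ (D1 ∘ₗ φ) (fun o l h => ?_) y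
    obtain ⟨h1, v, h2⟩ := isCW_re.1 h
    have := tele (fun g => ofAdd (MonoidAlgebra.single g (1 : ℤ))) o.1 o.2 h1 h2
    rw [inv_mul_cancel] at this
    rw [LinearMap.comp_apply, hφ, map_sg]
    refine (congrArg Prod.fst (evl_mk _ id _)).symm.trans (Eq.trans ?_ this)
    refine DFunLike.congr_fun (f := (MonoidHom.fst _ _).comp (evl (fun x => D1 (e x)) id))
      (FreeGroup.ext_hom _ _ fun x => ?_) _
    simp [evl, hD1, sub_eq_neg_add]
  · have a1 : ∀ g : Γ.Gp, MonoidAlgebra.single g (1 : ℤ) - .single 1 1 ∈ LinearMap.range D1 := by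
      intro g
      induction (closure_range_of Γ.rels ▸ Subgroup.mem_top g :
        g ∈ Subgroup.closure (Set.range of)) using Subgroup.closure_induction_right with
      | one => simp
      | mul_right x _ y hy ih =>
        obtain ⟨a, rfl⟩ := hy
        simpa [hD1] using add_mem (LinearMap.mem_range_self D1 (e (x, a))) ih
      | mul_inv_cancel x _ y hy ih =>
        obtain ⟨a, rfl⟩ := hy
        have := sub_mem ih (LinearMap.mem_range_self D1 (e (x * (of a)⁻¹, a)))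
        rwa [hD1, inv_mul_cancel_right, sub_sub_sub_cancel_left] at this
    have a2 : (LinearMap.range D1).mkQ = LinearMap.toSpanSingleton ℤ _
        ((LinearMap.range D1).mkQ (.single 1 1)) ∘ₗ
          (Rep.leftRegularHom (Rep.trivial ℤ Γ.Gp ℤ) (1 : ℤ)).hom.toLinearMap := by
      ext g : 2
      simpa using (Submodule.Quotient.eq _).2 (a1 g)
    have a3 := DFunLike.congr_fun a2 x
    rw [LinearMap.comp_apply, show (Rep.leftRegularHom (Rep.trivial ℤ Γ.Gp ℤ)
      (1 : ℤ)).hom.toLinearMap x = 0 from hx, map_zero] at a3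
    exact (Submodule.Quotient.mk_eq_zero _).1 a3
  · rintro ⟨y, rfl⟩
    refine DFunLike.congr_fun (f := (Rep.leftRegularHom (Rep.trivial ℤ Γ.Gp ℤ)
      (1 : ℤ)).hom.toLinearMap ∘ₗ D1) (g := 0) ?_ y
    ext a g : 3
    have := hD1 (g, a)
    simp only [e] at this
    simp [this, Finsupp.sum_sub_index]

end Vale.Agent.N172B
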