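import Vale.Agent.N172B.Norm
import Vale.Agent.P172V.B4

/-! Identities among the relators have chain zero. -/

set_option linter.all false

namespace Vale.Agent.N172B

open Finset Vale.Agent.P201.S Vale.Agent.P201.S.BrRed Vale.Agent.P172V VK VK.GS GD Multiplicative

variable {A : Type} {Γ : GS A}

theorem wd_U (K : PC A) (f : Option K.F) : (rl K id).wd f = K.bd f := List.map_id' _

theorem bal {E : Type} {l : List (E × Bool)} (h : FreeGroup.mk l = 1) {x : E × Bool} (hx : x ∈ l) :
    rv x ∈ l := by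
  classical
  by_contra hn
  have h1 := congrArg Prod.fst ((evl_mk (fun e => if e = x.1 then (if x.2 then (1 : ℤ) else -1) else 0)
    id l).symm.trans (by rw [h, map_one]))
  have h2 : (l.map (sg fun e => if e = x.1 then (if x.2 then (1 : ℤ) else -1) else 0)).sum = 0 := h1
  have h3 : ∀ y ∈ l, (0 : ℤ) ≤ sg (fun e => if e = x.1 then (if x.2 then (1 : ℤ) else -1) else 0) y := by
    intro y hy
    by_cases e : y.1 = x.1
    · rcases eq_or_rv e.symm with h4 | h4
      · rw [h4]
        cases hb : x.2 <;> simp [sg, hb]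
      · exact absurd (h4 ▸ hy) hn
    · simp [sg, e]
  have h4 := List.single_le_sum (l := l.map (sg fun e =>
    if e = x.1 then (if x.2 then (1 : ℤ) else -1) else 0))
    (List.forall_mem_map.2 h3) _ (List.mem_map_of_mem hx)
  rw [h2] at h4
  revert h4
  cases hb : x.2 <;> simp [sg, hb]

theorem cls_merge (o : Γ.O) (l1 l2 m1 m2 : List (Γ.P × Bool)) (x : Γ.P × Bool) :
    cls Γ o (l2 ++ l1 ++ (m2 ++ m1)) =
      cls Γ o (l1 ++ x :: l2) + cls Γ o (m1 ++ (x.1, !x.2) :: m2) := by
  simp only [cls, List.map_append, List.sum_append, List.map_cons, List.sum_cons, sg_rv]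
  abel

theorem pinch_case {sp : A → Prop} {K0 n C : ℕ} (hL : Γ.Loc sp K0 n) (hC : C * 2 ≤ K0)
    {K : PC A} (h4 : RD Γ K → Fintype.card K.F ≤ C * #(K.bdry univ)) {k : ℕ} {c : Ch Γ}
    (D : Dat Γ K k c) (hmin : ∀ k' < k, ∀ c', Xc Γ k' (ofAdd c', 1) → c' = 0)
    (hout : FreeGroup.mk (K.wd none) = 1) {l1 l2 : List (K.E × Bool)} {d d' : K.E × Bool}
    (h : K.bd none = l1 ++ d :: d' :: l2) (hl : K.lab d.1 = K.lab d'.1) (hs : d'.2 = !d.2)
    (hne : d.1 ≠ d'.1) (hends : K.org d = K.org (rv d')) : c = 0 := by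
  classical
  obtain ⟨ob, wk, hn0, hcw, hwd, h2, hcl⟩ := D
  obtain ⟨χ, hχ, hχf, hχo⟩ := exists_chi K fun f => cls Γ (ob f) (wk f)
  rw [hcl] at hχo
  let Ψ : FreeGroup K.E →* HH Γ := evl (fun e => χ (e, true)) K.lab
  have hΨ : ∀ l, Ψ (FreeGroup.mk l) = (ofAdd (l.map χ).sum, FreeGroup.mk (wo K l)) := fun l => by
    rw [evl_mk, show sg (fun e => χ (e, true)) = χ from funext fun ⟨e, b⟩ => by
      cases b
      · exact (hχ (e, true)).symm
      · rfl]
    rfl
  have hν := NN_norm Ψ
  have hface : ∀ f, Ψ (FreeGroup.mk (K.bd (some f))) =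
      (ofAdd (cls Γ (ob f) (wk f)), FreeGroup.mk (Γ.word (ob f) (wk f))) := fun f => by
    rw [hΨ, hχf, ← hwd]
    rfl
  have hpos : ∀ f, 0 < (wk f).length := fun f => List.length_pos_iff.2 (hn0 f)
  have hle : ∀ s : Finset K.F, ∑ f ∈ s, NN Γ (Ψ (FreeGroup.mk (K.bd (some f)))) ≤
      ((∑ f ∈ s, (2 * (wk f).length - 1) : ℕ) : ℕ∞) := by
    intro s
    rw [Nat.cast_sum]
    exact sum_le_sum fun f _ => (hface f).symm ▸ (NN_word _ _).trans (nn_cw (hcw f))
  have hlt : ∀ (c' : Ch Γ) (k' : ℕ), k' < k → NN Γ (ofAdd c', 1) ≤ k' → c' = 0 := by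
    intro c' k' hk hN
    rcases NN_cases (Γ := Γ) (ofAdd c', 1) with h1 | ⟨k1, h1, h3⟩
    · rw [h1] at hN
      exact absurd (top_le_iff.1 hN) (ENat.natCast_ne_top _)
    · rw [h1, Nat.cast_le] at hN
      exact hmin k1 (by omega) c' h3
  have hdd : FreeGroup.mk (wo K [d, d']) = 1 := by
    simp only [wo, List.map_cons, List.map_nil, ← hl, hs]
    exact Quot.sound (FreeGroup.Red.Step.not (L₁ := []) (L₂ := []))
  have hll : FreeGroup.mk (wo K (l1 ++ l2)) = 1 := by
    rw [← hout, show K.wd none = wo K (K.bd none) from rfl, h,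
      show l1 ++ d :: d' :: l2 = l1 ++ ([d, d'] ++ l2) from rfl]
    simp only [wo_append, ← FreeGroup.mul_mk, hdd, one_mul]
  have hsum : χ d + χ d' + ((l1 ++ l2).map χ).sum = -c := by
    rw [← hχo, h]
    simp only [List.map_append, List.sum_append, List.map_cons, List.sum_cons]
    abel
  obtain ⟨S, hS0, hS⟩ : ∃ S : Finset K.F, S.Nonempty ∧ ∀ ν : FreeGroup K.E → ℕ∞, IsNorm ν →
      ν (FreeGroup.mk [d, d']) ≤ ∑ x ∈ S, ν (FreeGroup.mk (K.bd (some x))) ∧
      ν (FreeGroup.mk (l1 ++ l2)) ≤ ∑ x ∈ Sᶜ, ν (FreeGroup.mk (K.bd (some x))) := by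
    simpa only [wo_U, wd_U] using pinch (rl K id) h hne hends
  by_cases hSc : Sᶜ.Nonempty
  · obtain ⟨a1, a2⟩ := hS _ hν
    have b0 := sum_add_sum_compl S fun f => 2 * (wk f).length - 1
    have b1 := sum_pos (f := fun f => 2 * (wk f).length - 1)
      (fun f _ => by have := hpos f; omega) hS0
    have b2 := sum_pos (f := fun f => 2 * (wk f).length - 1)
      (fun f _ => by have := hpos f; omega) hSc
    rw [hΨ, hdd] at a1
    rw [hΨ, hll] at a2
    have c1 := hlt _ _ (by omega) (a1.trans (hle _))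
    have c2 := hlt _ _ (by omega) (a2.trans (hle _))
    simp only [List.map_cons, List.map_nil, List.sum_cons, List.sum_nil, add_zero] at c1
    rw [c1, c2, add_zero] at hsum
    exact neg_eq_zero.1 hsum.symm
  have h0 : FreeGroup.mk (l1 ++ l2) = 1 := by
    have := (hS (fun u => if u = 1 then 0 else 1) ⟨by simp, fun a b => by
      by_cases ha : a = 1
      · simp [ha]
      · simp only [ha, if_false]
        split_ifs <;> simp, by simp, fun v a => by simp⟩).2
    rw [not_nonempty_iff_eq_empty.1 hSc, sum_empty] at this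
    by_contra h1
    simp [h1] at this
  have h1 : ((l1 ++ l2).map χ).sum = 0 := by
    have := hΨ (l1 ++ l2)
    rw [h0, map_one] at this
    exact (congrArg Prod.fst this).symm
  rw [h1, add_zero] at hsum
  by_contra hc
  have hk : ∀ k' : ℕ, k' < k → ¬ NN Γ (ofAdd c, 1) ≤ k' := fun k' a b => hc (hlt c k' a b)
  have ho : NN Γ (Ψ (FreeGroup.mk (K.bd none))) = NN Γ (ofAdd c, 1) := by
    rw [hΨ, hχo, show wo K (K.bd none) = K.wd none from rfl, hout, ← NN_inv (ofAdd c, 1)]
    simp
  have hlen : ∀ f, (K.bd (some f)).length = (wk f).length := by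
    intro f
    have := congrArg List.length (hwd f)
    simpa [PC.wd, word] using this
  have hmn : ∀ f, ¬ nn (Gm Γ) (FreeGroup.mk ((Gm Γ).word (ob f) (wk f))) ≤
      ((2 * (wk f).length - 2 : ℕ) : ℕ∞) := by
    intro f hf
    have a1 := stmtB1R _ (rl K id) _ hν
    simp only [wd_U] at a1
    rw [ho, ← add_sum_erase _ _ (mem_univ f), hface f] at a1
    have a2 := a1.trans (add_le_add ((NN_word _ _).trans hf) (hle _))
    rw [← Nat.cast_add] at a2
    rw [← add_sum_erase _ _ (mem_univ f)] at h2
    have := hpos f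
    exact hk _ (by omega) a2
  have hpo : ∀ f, ((wk f).map Γ.po).Nodup := fun f => by
    by_contra h
    exact hmn f (cheap_split (hcw f) h)
  have hfs : ∀ f, ((wk f).map Prod.fst).Nodup := fun f => by
    by_contra h
    exact hmn f (cheap_back (hcw f) (hpo f) h)
  choose g hg using fun f => exists_map ((wk f).head (hn0 f)) (K.bd (some f)) (wk f)
    (BrRed.nodup_bd K _) (hlen f)
  have hmap : ∀ f, (K.bd (some f)).map (fun d => (g f d).1) = (wk f).map Prod.fst := by
    intro f
    rw [← hg f, List.map_map]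
    rfl
  have hlab : ∀ f, ∀ d ∈ K.bd (some f), (K.lab d.1, d.2) = (Γ.lab (ob f) (g f d).1, (g f d).2) := by
    intro f
    have := hwd f
    rw [← hg f, word, List.map_map, PC.wd] at this
    exact List.map_inj_left.1 this
  have hinj : ∀ f, ∀ y ∈ K.bd (some f), ∀ y' ∈ K.bd (some f), (g f y).1 = (g f y').1 → y = y' :=
    fun f y hy y' hy' e => List.inj_on_of_nodup_map ((hmap f).symm ▸ hfs f) hy hy' e
  have hmg : ∀ f f' (l1 l2 m1 m2 : List (K.E × Bool)) y y', f ≠ f' → K.bd (some f) = l1 ++ y :: l2 →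
      K.bd (some f') = m1 ++ y' :: m2 → y'.2 = !y.2 → (ob f, (g f y).1) = (ob f', (g f' y').1) →
      ∃ a : HH Γ, Ψ (FreeGroup.mk (l2 ++ l1 ++ (m2 ++ m1))) = a * (ofAdd (-(χ y + χ y')), 1) ∧
        ∃ k' < k, NN Γ a + ∑ j ∈ (univ.erase f).erase f', NN Γ (Ψ (FreeGroup.mk (K.bd (some j)))) ≤
          (k' : ℕ∞) := by
    intro f f' l1 l2 m1 m2 y y' hff e1 e2 hy he
    have hob : ob f = ob f' := congrArg Prod.fst he
    have c1 := hcw f
    have c2 := hcw f'
    have hx : g f' y' = ((g f y).1, !(g f y).2) := by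
      refine Prod.ext (congrArg Prod.snd he).symm ?_
      have b1 := congrArg Prod.snd (hlab f y (by simp [e1]))
      have b2 := congrArg Prod.snd (hlab f' y' (by simp [e2]))
      simp only at b1 b2 ⊢
      rw [← b1, ← b2, hy]
    have k1 := hχf f
    have k2 := hχf f'
    rw [← hg f, e1, List.map_append (f := g f), List.map_cons (f := g f)] at c1 k1
    rw [← hg f', e2, List.map_append (f := g f'), List.map_cons (f := g f'), hx, ← hob] at c2 k2
    have w1 : ∀ l : List (K.E × Bool), (∀ x ∈ l, x ∈ K.bd (some f)) →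
        wo K l = Γ.word (ob f) (l.map (g f)) := by
      intro l hl
      rw [word, List.map_map, wo]
      exact List.map_congr_left fun x hx => hlab f x (hl x hx)
    have w2 : ∀ l : List (K.E × Bool), (∀ x ∈ l, x ∈ K.bd (some f')) →
        wo K l = Γ.word (ob f) (l.map (g f')) := by
      intro l hl
      rw [word, List.map_map, wo, hob]
      exact List.map_congr_left fun x hx => hlab f' x (hl x hx)
    have e3 : wo K (l2 ++ l1 ++ (m2 ++ m1)) = Γ.word (ob f)
        (l2.map (g f) ++ l1.map (g f) ++ (m2.map (g f') ++ m1.map (g f'))) := by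
      rw [wo_append, wo_append, wo_append, word_append, word_append, word_append,
        w1 l1 (fun x hx => by rw [e1]; simp [hx]), w1 l2 (fun x hx => by rw [e1]; simp [hx]),
        w2 m1 (fun x hx => by rw [e2]; simp [hx]), w2 m2 (fun x hx => by rw [e2]; simp [hx])]
    refine ⟨(ofAdd (cls Γ (ob f) _), FreeGroup.mk (Γ.word (ob f) _)), ?_, _, ?_,
      (add_le_add ((NN_word _ _).trans (nn_cw (cw_merge c1 c2))) (hle _)).trans
        (Nat.cast_add _ _).ge⟩
    · rw [hΨ, e3, cls_merge _ _ _ _ _ (g f y), ← k1, ← k2, Prod.mk_mul_mk, mul_one, ← ofAdd_add]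
      congr 2
      simp only [List.map_append, List.sum_append, List.map_cons, List.sum_cons]
      abel
    · rw [← add_sum_erase _ _ (mem_univ f),
        ← add_sum_erase _ _ (mem_erase.2 ⟨Ne.symm hff, mem_univ f'⟩), ← hlen, ← hlen, e1, e2] at h2
      simp only [List.length_append, List.length_cons, List.length_map] at h2 ⊢
      omega
  have hcw' : ∀ f, Γ.IsCW (ob f) (wk f) := fun f => (isCW_re (π := id)).1 (hcw f)
  let R : RD Γ K := ⟨ob, fun f y => (g f y).1, fun f y hy => (congrArg Prod.fst (hlab f y hy)).symm,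
    hinj, fun f => (hmap f).symm ▸ cyc_of_simple (hn0 f) (hcw' f) (hpo f) (hfs f),
    fun f f' y hy hy' he => by
      by_cases hff : f = f'
      · subst hff
        exact BrRed.rv_ne y (hinj f y hy _ hy' (congrArg Prod.snd he)).symm
      obtain ⟨l1, l2, e1⟩ := List.append_of_mem hy
      obtain ⟨m1, m2, e2⟩ := List.append_of_mem hy'
      have a1 := stmtB1M _ (rl K id) _ hν f f' l1 l2 m1 m2 y hff e1 e2
      simp only [wd_U, wo_U] at a1
      obtain ⟨a, b1, k', b2, b3⟩ := hmg f f' l1 l2 m1 m2 y _ hff e1 e2 rfl he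
      rw [ho, b1, hχ, add_neg_cancel, neg_zero, ofAdd_zero, ← Prod.one_eq_mk, mul_one] at a1
      exact hk k' b2 (a1.trans b3),
    fun f => ⟨ob f, wk f, hcw' f, by rw [hwd]⟩⟩
  have hnd := nodup_bd K none
  have hd : d ∈ K.bd none := by rw [h]; simp
  have hd' : d' ∈ K.bd none := by rw [h]; simp
  have hmem : ∀ y ∈ K.bd none, rv y ∉ K.bd none → y = d ∨ y = d' := by
    intro y hy hy'
    by_contra hcon
    have := bal h0 (x := y) (by
      rw [h] at hy
      simp only [List.mem_append, List.mem_cons] at hy ⊢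
      tauto)
    apply hy'
    rw [h]
    simp only [List.mem_append, List.mem_cons] at this ⊢
    tauto
  have hin : ∀ y, y = d ∨ y = d' → ∃ f, rv y ∈ K.bd (some f) := by
    intro y hy
    cases e : K.fc (rv y) with
    | some f => exact ⟨f, F5b.mem_bd_iff.2 e⟩
    | none =>
      exfalso
      have a1 := F5b.mem_bd_iff.2 e
      rw [h, List.nodup_middle, List.nodup_cons, List.nodup_middle, List.nodup_cons] at hnd
      have a2 : rv y ∈ l1 ++ l2 := by
        rw [h] at a1
        have a3 := BrRed.rv_ne y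
        have a4 : rv d ≠ d' := fun e => hne (by rw [← e]; rfl)
        have a5 : rv d' ≠ d := fun e => hne (by rw [← e]; rfl)
        simp only [List.mem_append, List.mem_cons] at a1 ⊢
        rcases hy with rfl | rfl <;> tauto
      have a3 := bal h0 a2
      rw [BrRed.rv_rv] at a3
      rcases hy with rfl | rfl
      · apply hnd.1
        simp only [List.mem_append, List.mem_cons] at a3 ⊢
        tauto
      · exact hnd.2.1 a3
  obtain ⟨f, hf⟩ := hin d (.inl rfl)
  obtain ⟨f', hf'⟩ := hin d' (.inr rfl)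
  have hno : ∀ {y j}, y ∈ K.bd (some j) → y ∉ K.bd none := fun a b => by
    simpa using face_unique K a b
  have hxx : rv d ≠ rv d' := fun e => hne (congrArg Prod.fst (BrRed.rv_inj e))
  have hdiff : (ob f, (g f (rv d)).1) ≠ (ob f', (g f' (rv d')).1) := by
    intro he
    by_cases hff : f = f'
    · subst hff
      exact hxx (hinj f _ hf _ hf' (congrArg Prod.snd he))
    obtain ⟨m1, m2, e1⟩ := List.append_of_mem hf
    obtain ⟨n1, n2, e2⟩ := List.append_of_mem hf'
    obtain ⟨-, -, -, p2, -⟩ := path_rest h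
    have a1 := cap (rl K id) hν hff e1 e2 (by rwa [BrRed.rv_rv]) (by rwa [BrRed.rv_rv])
      (by rw [BrRed.rv_rv]; exact p2.symm) (by rw [BrRed.rv_rv]; exact hends.symm)
    simp only [wd_U, wo_U] at a1
    obtain ⟨a, b1, k', b2, b3⟩ := hmg f f' m1 m2 n1 n2 _ _ hff e1 e2 (by simp [rv, hs]) he
    rw [hχ, hχ, ← neg_add, neg_neg, hsum] at b1
    refine hk k' b2 (le_trans ?_ b3)
    rw [show ((ofAdd c, 1) : HH Γ) = (Ψ (FreeGroup.mk (m2 ++ m1 ++ (n2 ++ n1))))⁻¹ * a by
      rw [b1]; simp, add_comm]
    exact (NN_mul _ _).trans (add_le_add ((NN_inv _).le.trans a1) le_rfl)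
  have hcard : #(K.bdry univ) ≤ 2 := by
    refine (card_le_card (t := {d.1, d'.1}) fun e he => ?_).trans card_le_two
    obtain ⟨b, ⟨j, -, a1⟩, a2⟩ := F5b.mem_bdry.1 he
    have a3 : (e, !b) ∈ K.bd none := by
      refine F5b.mem_bd_iff.2 ?_
      rcases h' : K.fc (e, !b) with _ | j
      · rfl
      · exact absurd ⟨j, mem_univ _, h'⟩ a2
    rcases hmem _ a3 (by simpa [rv] using hno (F5b.mem_bd_iff.2 a1)) with e | e <;> simp [← e]
  have := closed_empty R hL ((h4 R).trans ((Nat.mul_le_mul_left _ hcard).trans hC))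
    (fun y => if y = rv d then rv d' else if y = rv d' then rv d else rv y) fun j y hy => by
      by_cases e1 : y = rv d
      · subst e1
        obtain rfl := Option.some_injective _ (face_unique K hy hf)
        simp only [if_true, hxx.symm, if_false, true_and]
        exact ⟨hl.symm, f', hf', hdiff⟩
      by_cases e2 : y = rv d'
      · subst e2
        obtain rfl := Option.some_injective _ (face_unique K hy hf')
        simp only [if_true, e1, if_false, true_and]
        exact ⟨hl, f, hf, hdiff.symm⟩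
      have a1 : rv y ≠ rv d := fun e => hno hy (BrRed.rv_inj e ▸ hd)
      have a2 : rv y ≠ rv d' := fun e => hno hy (BrRed.rv_inj e ▸ hd')
      simp only [e1, e2, a1, a2, if_false, BrRed.rv_rv, true_and]
      refine ⟨rfl, ?_⟩
      cases e : K.fc (rv y) with
      | some j' => exact ⟨j', F5b.mem_bd_iff.2 e, R.red _ _ y hy (F5b.mem_bd_iff.2 e)⟩
      | none =>
        rcases hmem _ (F5b.mem_bd_iff.2 e) (by rw [BrRed.rv_rv]; exact hno hy) with e | e
        · exact absurd (by rw [← e, BrRed.rv_rv]) e1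
        · exact absurd (by rw [← e, BrRed.rv_rv]) e2
  exact (Fintype.card_eq_zero_iff.1 this).elim f

/-- identities among relators have chain zero -/
def Asph (Γ : GS A) : Prop := ∀ k c, Xc Γ k (ofAdd c, 1) → c = 0

theorem asph (m n : ℕ) : ∃ K0 : ℕ, ∀ (A : Type) (Γ : GS A) (sp : A → Prop),
    Fintype.card Γ.P ≤ m → Γ.Loc sp K0 n → Asph Γ := by
  classical
  obtain ⟨K1, C, h4⟩ := stmtB4 (n + 1) m (by omega)
  refine ⟨max K1 (C * 2), fun A Γ sp hm hL k => ?_⟩
  have h5 : ∀ K : PC A, RD Γ K → Fintype.card K.F ≤ C * #(K.bdry univ) := fun K R => by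
    refine (h4 A K (fun a => if sp a then 0 else 1) (fun a => by split_ifs <;> omega)
      (fun f => (R.len_le f).trans hm) fun P hP => (R.loc hL P (hP.trans (le_max_left _ _))).trans
        (Nat.mul_le_mul_right _ (Nat.le_succ n))).trans (Nat.mul_le_mul_left _ ?_)
    exact (sum_le_card_nsmul (K.bdry univ) (fun e => if sp (K.lab e) then 0 else 1) 1
      fun e _ => by split_ifs <;> omega).trans (by rw [smul_eq_mul, mul_one])
  induction k using Nat.strong_induction_on with
  | _ k ih =>
  intro c hc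
  have key : ∀ j : ℕ, ∀ K : PC A, (K.bd none).length ≤ j → Dat Γ K k c →
      FreeGroup.mk (K.wd none) = 1 → c = 0 := by
    have h0 : ∀ K : PC A, K.bd none = [] → Dat Γ K k c → c = 0 := fun K h D => by
      rw [← D.cl]
      refine sum_eq_zero fun f _ => ?_
      rcases (K.dconn none (some f)).cases_head with e | ⟨_, ⟨d, e, -⟩, -⟩
      · cases e
      · simp [h] at e
    intro j
    induction j with
    | zero => exact fun K hj D _ => h0 K (List.length_eq_zero_iff.1 (by omega)) D
    | succ j ihj =>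
      intro K hj D h5'
      by_cases hr : (K.bd none).IsChain (fun d d' => K.lab d.1 = K.lab d'.1 → d.2 = d'.2)
      · have h6 : FreeGroup.IsReduced (K.wd none) := by
          unfold FreeGroup.IsReduced PC.wd
          rw [List.isChain_map]
          exact hr
        have h7 := congrArg FreeGroup.toWord h5'
        rw [FreeGroup.toWord_mk, h6.reduce_eq, FreeGroup.toWord_one] at h7
        exact h0 K (List.map_eq_nil_iff.1 h7) D
      obtain ⟨l1, d, d', l2, he, hn⟩ := chain_break _ _ hr
      have hl : K.lab d.1 = K.lab d'.1 := by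
        by_contra h
        exact hn (fun h' => absurd h' h)
      have hs : d'.2 = !d.2 := by
        have : d.2 ≠ d'.2 := fun h => hn (fun _ => h)
        revert this
        cases d.2 <;> cases d'.2 <;> simp
      by_cases ho : d.1 ≠ d'.1 ∧ K.org d = K.org (rv d')
      · exact pinch_case hL (le_max_right _ _) (h5 K) D ih h5' he hl hs ho.1 ho.2
      have hF : Folded K (l1 ++ l2) := by
        by_cases hd : d.1 = d'.1
        · have : d' = rv d := Prod.ext hd.symm hs
          subst this
          exact stmtB1F3 A K l1 l2 d he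
        · exact stmtB1F4 A K l1 l2 d d' he hl hs hd fun e => ho ⟨hd, e⟩
      obtain ⟨K', ⟨D'⟩, hw⟩ := D.fold hF
      refine ihj K' ?_ D' ?_
      · have e1 : (K'.bd none).length = (K'.wd none).length := by
          unfold PC.wd; rw [List.length_map]
        rw [e1, hw, wo, List.length_map]
        rw [he] at hj
        simp only [List.length_append, List.length_cons] at hj ⊢
        omega
      · rw [← h5', hw]
        have hwd : K.wd none = wo K l1 ++ (K.lab d.1, d.2) :: (K.lab d.1, !d.2) :: wo K l2 := by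
          unfold PC.wd wo
          rw [he]
          simp only [List.map_append, List.map_cons]
          rw [hs, hl]
        rw [hwd, wo_append]
        exact (Quot.sound FreeGroup.Red.Step.not).symm
  obtain ⟨K, ⟨D⟩, h⟩ := realise hc
  exact key _ K le_rfl D h

end Vale.Agent.N172B
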